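import Vale.Agent.P321.Defs

/-! Statistics of traces, their closure properties, and the decoder. -/

open Finset

namespace Vale.Agent.P321U

open Vale.Agent.P321

/-- Expectation of the statistic `T` of a trace of a word, deletion probability `q`. -/
noncomputable def Ex (q : ℝ) : (List Bool → ℂ) → List Bool → ℂ
  | T, [] => T []
  | T, b :: w => (1 - q : ℝ) * Ex q (fun u => T (b :: u)) w + q * Ex q T w

/-- Functions of the word that are expectations of statistics bounded by `C`. -/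
def Rl (q C : ℝ) (f : List Bool → ℂ) : Prop :=
  ∃ T : List Bool → ℂ, (∀ u, ‖T u‖ ≤ C) ∧ ∀ w, f w = Ex q T w

variable {q C D : ℝ} {f g : List Bool → ℂ}

theorem Ex_add (T S : List Bool → ℂ) (w : List Bool) :
    Ex q (fun u => T u + S u) w = Ex q T w + Ex q S w := by
  induction w generalizing T S with
  | nil => rfl
  | cons b w ih => simp only [Ex, ih]; ring

theorem Ex_mul (c : ℂ) (T : List Bool → ℂ) (w : List Bool) :
    Ex q (fun u => c * T u) w = c * Ex q T w := by
  induction w generalizing T with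
  | nil => rfl
  | cons b w ih => simp only [Ex, ih]; ring

theorem Ex_const (c : ℂ) (w : List Bool) : Ex q (fun _ => c) w = c := by
  induction w with
  | nil => rfl
  | cons b w ih => simp only [Ex, ih]; push_cast; ring

theorem Ex_conj (T : List Bool → ℂ) (w : List Bool) :
    Ex q (fun u => (starRingEnd ℂ) (T u)) w = (starRingEnd ℂ) (Ex q T w) := by
  induction w generalizing T with
  | nil => rfl
  | cons b w ih => simp only [Ex, ih, map_add, map_mul, Complex.conj_ofReal]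

theorem norm_Ex_le (hq : 0 ≤ q) (hq1 : q ≤ 1) {T : List Bool → ℂ} (h : ∀ u, ‖T u‖ ≤ C)
    (w : List Bool) : ‖Ex q T w‖ ≤ C := by
  induction w generalizing T with
  | nil => exact h _
  | cons b w ih =>
    refine (norm_add_le _ _).trans ?_
    rw [norm_mul, norm_mul, Complex.norm_real, Complex.norm_real, Real.norm_of_nonneg hq,
      Real.norm_of_nonneg (sub_nonneg.2 hq1)]
    nlinarith [mul_le_mul_of_nonneg_left (ih (T := fun u => T (b :: u)) fun u => h _)
      (sub_nonneg.2 hq1), mul_le_mul_of_nonneg_left (ih h) hq]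

namespace Rl

theorem nonneg (h : Rl q C f) : 0 ≤ C := h.elim fun _ h => (norm_nonneg _).trans (h.1 [])

theorem norm_le (hq : 0 ≤ q) (hq1 : q ≤ 1) (h : Rl q C f) (w : List Bool) : ‖f w‖ ≤ C :=
  h.elim fun _ h => h.2 w ▸ norm_Ex_le hq hq1 h.1 w

theorem mono (h : Rl q C f) (hC : C ≤ D) : Rl q D f :=
  h.imp fun _ h => ⟨fun u => (h.1 u).trans hC, h.2⟩

theorem const (q : ℝ) (c : ℂ) : Rl q ‖c‖ fun _ => c :=
  ⟨fun _ => c, fun _ => le_rfl, fun w => (Ex_const c w).symm⟩

theorem add (h : Rl q C f) (h' : Rl q D g) : Rl q (C + D) fun w => f w + g w := by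
  obtain ⟨T, h1, h2⟩ := h
  obtain ⟨S, h3, h4⟩ := h'
  exact ⟨fun u => T u + S u, fun u => (norm_add_le _ _).trans (add_le_add (h1 u) (h3 u)),
    fun w => by rw [Ex_add, ← h2, ← h4]⟩

theorem smul (h : Rl q C f) (c : ℂ) : Rl q (‖c‖ * C) fun w => c * f w := by
  obtain ⟨T, h1, h2⟩ := h
  exact ⟨fun u => c * T u, fun u => by
    rw [norm_mul]; exact mul_le_mul_of_nonneg_left (h1 u) (norm_nonneg _),
    fun w => by rw [Ex_mul, ← h2]⟩

theorem sum {ι : Type} (s : Finset ι) {C : ι → ℝ} {f : ι → List Bool → ℂ}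
    (h : ∀ i ∈ s, Rl q (C i) (f i)) : Rl q (∑ i ∈ s, C i) fun w => ∑ i ∈ s, f i w := by
  classical
  induction s using Finset.induction_on with
  | empty => simpa using const q 0
  | insert i s hi ih =>
    simp only [sum_insert hi]
    exact (h i (mem_insert_self _ _)).add (ih fun j hj => h j (mem_insert_of_mem hj))

theorem conj (h : Rl q C f) : Rl q C fun w => (starRingEnd ℂ) (f w) := by
  obtain ⟨T, h1, h2⟩ := h
  exact ⟨fun u => (starRingEnd ℂ) (T u), fun u => by simpa using h1 u,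
    fun w => by rw [Ex_conj, ← h2]⟩

theorem re (h : Rl q C f) : Rl q C fun w => ((f w).re : ℂ) := by
  have h1 := (h.add h.conj).smul (1 / 2)
  rw [show ‖(1 / 2 : ℂ)‖ * (C + C) = C by simp; ring] at h1
  simpa only [Complex.add_conj, Complex.ofReal_mul, Complex.ofReal_ofNat, ← mul_assoc,
    one_div_mul_cancel (two_ne_zero' ℂ), one_mul] using h1

/-- prepending a known letter -/
theorem cons (hq : 0 ≤ q) (hq1 : q ≤ 1) (h : Rl q C f) (b : Bool) : Rl q C fun w => f (b :: w) := by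
  obtain ⟨T, h1, h2⟩ := h
  have h3 : Rl q C (Ex q fun u => T (b :: u)) := ⟨_, fun u => h1 _, fun _ => rfl⟩
  have h4 : Rl q C (Ex q T) := ⟨_, h1, fun _ => rfl⟩
  have h5 := (h3.smul (1 - q : ℝ)).add (h4.smul q)
  rw [Complex.norm_real, Complex.norm_real, Real.norm_of_nonneg hq,
    Real.norm_of_nonneg (sub_nonneg.2 hq1), show (1 - q) * C + q * C = C by ring] at h5
  simpa only [h2, Ex] using h5

theorem append (hq : 0 ≤ q) (hq1 : q ≤ 1) (h : Rl q C f) (v : List Bool) :
    Rl q C fun w => f (v ++ w) := by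
  induction v generalizing f with
  | nil => exact h
  | cons b v ih => exact ih (h.cons hq hq1 b)

end Rl

/-- random splitting of a trace in two -/
noncomputable def spl (a b c : ℝ) : (List Bool → ℂ) → (List Bool → ℂ) → List Bool → ℂ
  | T, S, [] => T [] * S []
  | T, S, x :: u => a * spl a b c (fun v => T (x :: v)) S u + b * spl a b c T (fun v => S (x :: v)) u
      + c * spl a b c (fun v => T (x :: v)) (fun v => S (x :: v)) u

theorem norm_spl {a b c : ℝ} (ha : 0 ≤ a) (hb : 0 ≤ b) (hc : 0 ≤ c) (h : a + b + c = 1)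
    {T S : List Bool → ℂ} (hT : ∀ u, ‖T u‖ ≤ C) (hS : ∀ u, ‖S u‖ ≤ D) (u : List Bool) :
    ‖spl a b c T S u‖ ≤ C * D := by
  induction u generalizing T S with
  | nil => exact (norm_mul_le _ _).trans (mul_le_mul (hT _) (hS _) (norm_nonneg _)
      ((norm_nonneg _).trans (hT [])))
  | cons x u ih =>
    refine norm_add₃_le.trans ?_
    simp only [norm_mul, Complex.norm_real, Real.norm_of_nonneg, ha, hb, hc]
    have h1 := mul_le_mul_of_nonneg_left (ih (T := fun v => T (x :: v)) (fun _ => hT _) hS) ha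
    have h2 := mul_le_mul_of_nonneg_left (ih (S := fun v => S (x :: v)) hT fun _ => hS _) hb
    have h3 := mul_le_mul_of_nonneg_left (ih (T := fun v => T (x :: v))
      (S := fun v => S (x :: v)) (fun _ => hT _) fun _ => hS _) hc
    calc _ ≤ (a + b + c) * (C * D) := by linarith
      _ = _ := by rw [h, one_mul]

theorem Ex_spl {q₁ q₂ a b c : ℝ} (ha : (1 - q₁ * q₂) * a = (1 - q₁) * q₂)
    (hb : (1 - q₁ * q₂) * b = q₁ * (1 - q₂)) (hc : (1 - q₁ * q₂) * c = (1 - q₁) * (1 - q₂))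
    (T S : List Bool → ℂ) (w : List Bool) :
    Ex (q₁ * q₂) (spl a b c T S) w = Ex q₁ T w * Ex q₂ S w := by
  induction w generalizing T S with
  | nil => rfl
  | cons x w ih =>
    have ha' := congrArg ((↑) : ℝ → ℂ) ha
    have hb' := congrArg ((↑) : ℝ → ℂ) hb
    have hc' := congrArg ((↑) : ℝ → ℂ) hc
    simp only [Ex, spl, Ex_add, Ex_mul, ih]
    push_cast at ha' hb' hc' ⊢
    linear_combination (Ex q₁ (fun v => T (x :: v)) w * Ex q₂ S w) * ha' +
      (Ex q₁ T w * Ex q₂ (fun v => S (x :: v)) w) * hb' +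
      (Ex q₁ (fun v => T (x :: v)) w * Ex q₂ (fun v => S (x :: v)) w) * hc'

/-- products -/
theorem Rl.mul {q₁ q₂ : ℝ} (h1 : 0 ≤ q₁) (h1' : q₁ ≤ 1) (h2 : 0 ≤ q₂) (h2' : q₂ < 1)
    (h : Rl q₁ C f) (h' : Rl q₂ D g) : Rl (q₁ * q₂) (C * D) fun w => f w * g w := by
  obtain ⟨T, t1, t2⟩ := h
  obtain ⟨S, s1, s2⟩ := h'
  have h0 : 0 < 1 - q₁ * q₂ := by nlinarith
  have a1 := sub_nonneg.2 h1'
  have a2 := sub_nonneg.2 h2'.le
  exact ⟨spl ((1 - q₁) * q₂ / (1 - q₁ * q₂)) (q₁ * (1 - q₂) / (1 - q₁ * q₂))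
    ((1 - q₁) * (1 - q₂) / (1 - q₁ * q₂)) T S,
    norm_spl (by positivity) (by positivity) (by positivity) (by field_simp; ring) t1 s1,
    fun w => by rw [Ex_spl (mul_div_cancel₀ _ h0.ne') (mul_div_cancel₀ _ h0.ne')
      (mul_div_cancel₀ _ h0.ne'), ← t2, ← s2]⟩

/-- fewer deletions -/
theorem Rl.of_le {q' : ℝ} (h0 : 0 ≤ q') (hq : q' ≤ q) (hq1 : q < 1) (h : Rl q C f) : Rl q' C f := by
  rcases (h0.trans hq).eq_or_lt with rfl | hp
  · rwa [le_antisymm hq h0]
  have := (Rl.const (q' / q) 1).mul (div_nonneg h0 hp.le) ((div_le_one hp).2 hq) hp.le hq1 h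
  simpa only [div_mul_cancel₀ _ hp.ne', norm_one, one_mul] using this

/-- the one-sided exponential kernel `∑_{t ≥ 1} ζ^t f (drop t w)` -/
noncomputable def kr (ζ : ℂ) (f : List Bool → ℂ) : List Bool → ℂ
  | [] => ζ / (1 - ζ) * f []
  | _ :: w => ζ * (f w + kr ζ f w)

noncomputable def skp (a c e : ℂ) (T : List Bool → ℂ) : List Bool → ℂ
  | [] => e * T []
  | _ :: u => a * T u + c * skp a c e T u

theorem Rl.kr {ζ : ℂ} (hζ : ‖ζ - q‖ < 1 - q) (h : Rl q C f) :
    Rl q (‖ζ‖ / (1 - q - ‖ζ - q‖) * C) (kr ζ f) := by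
  have hC := h.nonneg
  obtain ⟨T, h1, h2⟩ := h
  have hp : 0 < 1 - q := (norm_nonneg _).trans_lt hζ
  have hp' : ((1 - q : ℝ) : ℂ) ≠ 0 := Complex.ofReal_ne_zero.2 hp.ne'
  have hd : 0 < 1 - q - ‖ζ - q‖ := sub_pos.2 hζ
  refine ⟨skp (ζ / (1 - q : ℝ)) ((ζ - q) / (1 - q : ℝ)) (ζ / (1 - ζ)) T, fun u => ?_, fun w => ?_⟩
  · induction u with
    | nil =>
      rw [skp, norm_mul, norm_div]
      refine mul_le_mul (div_le_div_of_nonneg_left (norm_nonneg _) hd ?_) (h1 _) (norm_nonneg _)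
        (by positivity)
      have := norm_sub_norm_le ((1 - q : ℝ) : ℂ) (ζ - q)
      rwa [Complex.norm_real, Real.norm_of_nonneg hp.le,
        show ((1 - q : ℝ) : ℂ) - (ζ - q) = 1 - ζ by push_cast; ring] at this
    | cons b u ih =>
      refine (norm_add_le _ _).trans ?_
      rw [norm_mul, norm_mul, norm_div, norm_div, Complex.norm_real, Real.norm_of_nonneg hp.le]
      refine (add_le_add (mul_le_mul_of_nonneg_left (h1 u) (by positivity))
        (mul_le_mul_of_nonneg_left ih (by positivity))).trans (le_of_eq ?_)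
      field_simp
      ring
  · induction w with
    | nil => simp only [P321U.kr, Ex, skp, h2]
    | cons b w ih =>
      simp only [P321U.kr, Ex, skp, Ex_add, Ex_mul, ← ih, ← h2]
      field_simp
      ring

theorem hasSum_kr {ζ : ℂ} (hζ : ‖ζ‖ < 1) (f : List Bool → ℂ) (w : List Bool) :
    HasSum (fun t : ℕ => ζ ^ (t + 1) * f (w.drop (t + 1))) (kr ζ f w) := by
  induction w with
  | nil =>
    have := ((hasSum_geometric_of_norm_lt_one hζ).mul_left ζ).mul_right (f [])
    simpa only [kr, List.drop_nil, pow_succ', div_eq_mul_inv] using this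
  | cons b w ih =>
    rw [← hasSum_nat_add_iff' 1]
    have := ih.mul_left ζ
    simpa [kr, mul_add, pow_succ' ζ (_ + 1), mul_assoc] using this

/-! ### The decoder -/

theorem subseq_cons {n : ℕ} (x : Fin (n + 1) → Bool) (b : Bool) (k : Fin n → Bool) :
    subseq x (Fin.cons b k) = (if b then [x 0] else []) ++ subseq (fun i => x i.succ) k := by
  simp only [subseq, List.finRange_succ, List.filter_cons, Fin.cons_zero, List.filter_map]
  cases b <;> simp [Function.comp_def]

theorem sum_mask (q : ℝ) {n : ℕ} (x : Fin n → Bool) (T : List Bool → ℂ) :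
    ∑ k, (maskProb q k : ℂ) * T (subseq x k) = Ex q T (List.ofFn x) := by
  induction n generalizing T with
  | zero => simp [maskProb, subseq, Ex]
  | succ n ih =>
    rw [← Equiv.sum_comp (Fin.consEquiv fun _ => Bool), Fintype.sum_prod_type, Fintype.sum_bool,
      List.ofFn_succ, Ex, ← ih, ← ih, mul_sum, mul_sum]
    simp [maskProb, Fin.prod_univ_succ, Fin.consEquiv, subseq_cons, mul_assoc]

theorem maskProb_nonneg (hq : 0 ≤ q) (hq1 : q ≤ 1) {n : ℕ} (k : Fin n → Bool) :
    0 ≤ maskProb q k :=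
  prod_nonneg fun i _ => by split_ifs <;> linarith

theorem sum_maskProb (q : ℝ) (n : ℕ) : ∑ k : Fin n → Bool, maskProb q k = 1 := by
  have := sum_mask q (fun _ : Fin n => false) fun _ => 1
  rw [Ex_const] at this
  simp only [mul_one] at this
  exact_mod_cast this

/-- an oriented real test -/
theorem exists_test {n : ℕ} {τ : ℝ} (hq : 0 ≤ q) (hq1 : q ≤ 1) (x y : Fin n → Bool) (h : Rl q 1 f)
    (hτ : τ ≤ ‖f (List.ofFn x) - f (List.ofFn y)‖) : ∃ S : List Bool → ℝ, (∀ u, |S u| ≤ 2) ∧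
      τ / 2 ≤ ∑ k, maskProb q k * S (subseq x k) ∧
      ∑ k, maskProb q k * S (subseq y k) ≤ -(τ / 2) := by
  obtain ⟨c, hc, he⟩ := Complex.exists_norm_eq_mul_self (f (List.ofFn x) - f (List.ofFn y))
  have h1 := h.smul c
  rw [hc, one_mul] at h1
  have hx := (Complex.abs_re_le_norm _).trans (h1.norm_le hq hq1 (List.ofFn x))
  have hy := (Complex.abs_re_le_norm _).trans (h1.norm_le hq hq1 (List.ofFn y))
  obtain ⟨T, h2, h3⟩ := h1
  have h4 : ∀ z : Fin n → Bool, ∑ k, maskProb q k * (T (subseq z k)).re =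
      (c * f (List.ofFn z)).re := fun z => by
    rw [show c * f (List.ofFn z) = _ from h3 _, ← sum_mask, Complex.re_sum]
    simp only [Complex.re_ofReal_mul]
  have h5 := congrArg Complex.re he
  rw [mul_sub, Complex.sub_re, Complex.ofReal_re] at h5
  refine ⟨fun u => (T u).re - ((c * f (List.ofFn x)).re + (c * f (List.ofFn y)).re) / 2,
    fun u => ?_, ?_, ?_⟩
  · have h6 := abs_le.1 ((Complex.abs_re_le_norm _).trans (h2 u))
    rw [abs_le] at hx hy ⊢
    constructor <;> linarith [hx.1, hx.2, hy.1, hy.2]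
  · simp only [mul_sub, sum_sub_distrib, h4, ← sum_mul, sum_maskProb]
    linarith
  · simp only [mul_sub, sum_sub_distrib, h4, ← sum_mul, sum_maskProb]
    linarith

theorem chernoff {n m : ℕ} {τ : ℝ} (hq : 0 ≤ q) (hq1 : q ≤ 1) (hτ : 0 ≤ τ) (hτ1 : τ ≤ 8)
    (x : Fin n → Bool) {S : List Bool → ℝ} (hS : ∀ u, |S u| ≤ 4)
    (h : τ ≤ ∑ k, maskProb q k * S (subseq x k)) :
    ∑ K : Fin m → Fin n → Bool, (∏ j, maskProb q (K j)) *
      (if ∑ j, S (subseq x (K j)) ≤ 0 then 1 else 0) ≤ Real.exp (-(m * (τ ^ 2 / 64))) := by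
  have h1 : ∑ k, maskProb q k * Real.exp (-(τ / 32 * S (subseq x k))) ≤
      Real.exp (-(τ ^ 2 / 64)) := by
    refine le_trans (sum_le_sum (g := fun k => maskProb q k *
      (1 + τ ^ 2 / 64 - τ / 32 * S (subseq x k))) fun k _ =>
      mul_le_mul_of_nonneg_left ?_ (maskProb_nonneg hq hq1 k)) ?_
    · have h2 := abs_le.1 (hS (subseq x k))
      have h3 : |-(τ / 32 * S (subseq x k))| ≤ τ / 8 := by
        rw [abs_neg, abs_mul, abs_of_nonneg (by positivity)]
        nlinarith [hS (subseq x k)]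
      have h4 := (abs_le.1 (Real.abs_exp_sub_one_sub_id_le (h3.trans (by linarith)))).2
      have h5 := pow_le_pow_left₀ (abs_nonneg _) h3 2
      rw [sq_abs] at h5
      linarith
    · simp only [mul_sub, sum_sub_distrib, ← sum_mul, sum_maskProb, mul_left_comm _ (τ / 32),
        ← mul_sum]
      nlinarith [Real.add_one_le_exp (-(τ ^ 2 / 64)), mul_le_mul_of_nonneg_left h hτ]
  calc _ ≤ ∑ K : Fin m → Fin n → Bool,
        ∏ j, maskProb q (K j) * Real.exp (-(τ / 32 * S (subseq x (K j)))) := by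
        refine sum_le_sum fun K _ => ?_
        rw [prod_mul_distrib, ← Real.exp_sum]
        refine mul_le_mul_of_nonneg_left ?_ (prod_nonneg fun j _ => maskProb_nonneg hq hq1 _)
        split_ifs with h2
        · rw [sum_neg_distrib, ← mul_sum]
          exact Real.one_le_exp (by nlinarith)
        · exact (Real.exp_pos _).le
    _ = (∑ k, maskProb q k * Real.exp (-(τ / 32 * S (subseq x k)))) ^ m := by
        rw [← Fin.prod_const, prod_univ_sum, Fintype.piFinset_univ]
    _ ≤ Real.exp (-(τ ^ 2 / 64)) ^ m := pow_le_pow_left₀ (sum_nonneg fun k _ =>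
        mul_nonneg (maskProb_nonneg hq hq1 k) (Real.exp_pos _).le) h1 m
    _ = _ := by rw [← Real.exp_nat_mul, mul_neg]

theorem reconstructs {n m : ℕ} {τ : ℝ} (hq : 0 ≤ q) (hq1 : q ≤ 1) (hτ : 0 < τ) (hτ1 : τ ≤ 8)
    (h : ∀ x y : Fin n → Bool, x ≠ y → ∃ f, Rl q 1 f ∧ τ ≤ ‖f (List.ofFn x) - f (List.ofFn y)‖)
    (hm : 64 * (n + 2) / τ ^ 2 ≤ m) : Reconstructs q n m := by
  classical
  have h1 : ∀ x y : Fin n → Bool, ∃ S : List Bool → ℝ, (∀ u, |S u| ≤ 2) ∧ (x ≠ y →
      τ / 2 ≤ ∑ k, maskProb q k * S (subseq x k) ∧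
      ∑ k, maskProb q k * S (subseq y k) ≤ -(τ / 2)) := by
    intro x y
    by_cases e : x = y
    · exact ⟨0, by simp, fun k => absurd e k⟩
    · obtain ⟨f, h2, h3⟩ := h x y e
      exact (exists_test hq hq1 x y h2 h3).imp fun S k => ⟨k.1, fun _ => k.2⟩
  choose S hS hE using h1
  let W : (Fin m → List Bool) → (Fin n → Bool) → Prop := fun t x =>
    ∀ y, y ≠ x → 0 < ∑ j, (S x y (t j) - S y x (t j))
  have hW : ∀ t x y, W t x → W t y → x = y := by
    intro t x y hx hy
    by_contra e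
    have a1 := hx y (Ne.symm e)
    have a2 := hy x e
    rw [sum_sub_distrib] at a1 a2
    linarith
  let out : (Fin m → List Bool) → Fin n → Bool := fun t =>
    if k : ∃ x, W t x then k.choose else default
  refine ⟨fun t y => if y = out t then 1 else 0, fun t y => by positivity,
    fun t => by simp, fun x => ?_⟩
  have h2 : ∀ t, 1 - ∑ y ∈ univ.erase x, (if ∑ j, (S x y (t j) - S y x (t j)) ≤ 0 then 1 else 0)
      ≤ if x = out t then (1 : ℝ) else 0 := by
    intro t
    have h3 : ∀ y ∈ univ.erase x,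
        (0 : ℝ) ≤ if ∑ j, (S x y (t j) - S y x (t j)) ≤ 0 then 1 else 0 :=
      fun y _ => by split_ifs <;> simp
    by_cases e : W t x
    · have e' : ∃ x, W t x := ⟨x, e⟩
      rw [if_pos (show x = out t by simp only [out, dif_pos e']; exact hW t _ _ e e'.choose_spec)]
      linarith [sum_nonneg h3]
    · simp only [W, not_forall, not_lt] at e
      obtain ⟨y, hy, e⟩ := e
      have h4 := single_le_sum h3 (mem_erase.2 ⟨hy, mem_univ y⟩)
      rw [if_pos e] at h4
      split_ifs <;> linarith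
  have h3 : ∑ K : Fin m → Fin n → Bool, ∏ j, maskProb q (K j) = 1 := by
    rw [← Fintype.piFinset_univ, ← prod_univ_sum (fun _ => univ) fun _ k => maskProb q k]
    simp [sum_maskProb]
  refine le_trans ?_ (sum_le_sum fun K _ => mul_le_mul_of_nonneg_left (h2 _)
    (prod_nonneg fun j _ => maskProb_nonneg hq hq1 _))
  simp only [mul_sub, mul_one, mul_sum]
  rw [sum_sub_distrib, h3, sum_comm]
  have h4 : ∀ y ∈ univ.erase x, ∑ K : Fin m → Fin n → Bool, (∏ j, maskProb q (K j)) *
      (if ∑ j, (S x y (subseq x (K j)) - S y x (subseq x (K j))) ≤ 0 then 1 else 0) ≤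
      Real.exp (-(m * (τ ^ 2 / 64))) := by
    intro y hy
    have e := (mem_erase.1 hy).1
    refine chernoff hq hq1 hτ.le hτ1 x (S := fun u => S x y u - S y x u)
      (fun u => (abs_sub _ _).trans (by linarith [hS x y u, hS y x u])) ?_
    simp only [mul_sub, sum_sub_distrib]
    linarith [(hE x y e.symm).1, (hE y x e).2]
  have h5 := sum_le_card_nsmul _ _ _ h4
  have h6 : ((univ.erase x).card : ℝ) ≤ Real.exp n := by
    have : (univ.erase x).card ≤ 2 ^ n := card_erase_le.trans (by simp)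
    calc _ ≤ (2 : ℝ) ^ n := by exact_mod_cast this
      _ ≤ Real.exp 1 ^ n := by gcongr; linarith [Real.add_one_le_exp 1]
      _ = _ := by rw [← Real.exp_nat_mul, mul_one]
  have h7 : Real.exp n * Real.exp (-(m * (τ ^ 2 / 64))) ≤ 1 / 3 := by
    rw [div_le_iff₀ (by positivity)] at hm
    rw [← Real.exp_add]
    refine (Real.exp_le_exp.2 (show _ ≤ -2 by linarith)).trans ?_
    rw [Real.exp_neg, ← one_div]
    exact one_div_le_one_div_of_le (by norm_num) (by linarith [Real.add_one_le_exp 2])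
  rw [nsmul_eq_mul] at h5
  linarith [mul_le_mul_of_nonneg_right h6 (Real.exp_pos (-(m * (τ ^ 2 / 64)))).le]

theorem sample_le {n : ℕ} {τ : ℝ} (hq : 0 ≤ q) (hq1 : q ≤ 1) (hτ : 0 < τ) (hτ1 : τ ≤ 8)
    (h : ∀ x y : Fin n → Bool, x ≠ y → ∃ f, Rl q 1 f ∧ τ ≤ ‖f (List.ofFn x) - f (List.ofFn y)‖) :
    (sampleComplexity q n : ℝ) ≤ 64 * (n + 2) / τ ^ 2 + 1 :=
  (Nat.cast_le.2 (Nat.sInf_le (reconstructs hq hq1 hτ hτ1 h (Nat.le_ceil _)))).trans
    (Nat.ceil_lt_add_one (by positivity)).le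

end Vale.Agent.P321U
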