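import Mathlib

open Finset Complex MeasureTheory

namespace Vale.Agent.P321U

theorem arc_sub {g : ℂ → ℂ} (hg : Differentiable ℂ g) (h0 : g 0 ≠ 0) :
    Real.log ‖g 0‖ ≤ Real.circleAverage (fun w => Real.log ‖g w‖) 0 1 := by
  have h1 : AnalyticOnNhd ℂ g (Metric.closedBall 0 |(1 : ℝ)|) := fun w _ => hg.analyticAt w
  rw [h1.circleAverage_log_norm one_ne_zero h0, le_add_iff_nonneg_left]
  refine finsum_nonneg fun u => ?_
  by_cases hu : u ∈ Metric.closedBall (0 : ℂ) |(1 : ℝ)|
  · refine mul_nonneg (by exact_mod_cast MeromorphicOn.AnalyticOnNhd.divisor_nonneg h1 u) ?_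
    rw [one_mul, Real.log_inv, neg_nonneg]
    exact Real.log_nonpos (norm_nonneg _) (by simpa using hu)
  · simp [Function.locallyFinsuppWithin.apply_eq_zero_of_notMem _ hu]

theorem arc {f : ℂ → ℂ} (hf : Differentiable ℂ f) {z v : ℂ} {K s a : ℝ} (hK : 0 < K) (hs : 0 < s)
    (ha : 0 < a) (ha1 : a ≤ 1) (hb : ∀ w, ‖w - z‖ = ‖v‖ → ‖f w‖ ≤ K)
    (hz : K * Real.exp (-s) ≤ ‖f z‖) :
    ∃ w, ‖w - (z + v)‖ ≤ a * ‖v‖ ∧ K * Real.exp (-(4 / a * s)) ≤ ‖f w‖ := by
  by_contra hn
  simp only [not_exists, not_and, not_le] at hn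
  set S := 4 / a * s with hS
  have hS0 : 0 < S := by positivity
  have he : 0 < K * Real.exp (-S) := by positivity
  set g : ℂ → ℂ := fun w => f (z + v * cexp (-(a : ℂ) * I) * w) / (K * Real.exp (-S) : ℝ) with hg
  have hgd : Differentiable ℂ g := by
    refine Differentiable.div_const ?_ _
    fun_prop
  have hn' : ∀ w, ‖g w‖ = ‖f (z + v * cexp (-(a : ℂ) * I) * w)‖ / (K * Real.exp (-S)) := fun w => by
    rw [hg]
    simp only
    rw [norm_div, Complex.norm_real, Real.norm_of_nonneg he.le]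
  have h1 : Real.exp (S - s) ≤ ‖g 0‖ := by
    rw [hn', mul_zero, add_zero, le_div_iff₀ he, mul_left_comm, ← Real.exp_add,
      show S - s + -S = -s by ring]
    exact hz
  have h0 : g 0 ≠ 0 := norm_pos_iff.1 ((Real.exp_pos _).trans_le h1)
  have h2 := ((Real.le_log_iff_exp_le (norm_pos_iff.2 h0)).2 h1).trans (arc_sub hgd h0)
  have hi : IntervalIntegrable (fun θ => Real.log ‖g (circleMap 0 1 θ)‖) volume 0 (2 * Real.pi) :=
    MeromorphicOn.circleIntegrable_log_norm (f := g) (c := 0) (R := 1)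
      fun w _ => (hgd.analyticAt w).meromorphicAt
  have hp := Real.pi_gt_three
  have hp4 := Real.pi_lt_four
  have i1 : IntervalIntegrable (fun θ => Real.log ‖g (circleMap 0 1 θ)‖) volume 0 (2 * a) :=
    hi.mono_set (by
      rw [Set.uIcc_of_le (by linarith), Set.uIcc_of_le (by linarith)]
      exact Set.Icc_subset_Icc le_rfl (by linarith))
  have i2 : IntervalIntegrable (fun θ => Real.log ‖g (circleMap 0 1 θ)‖) volume (2 * a)
      (2 * Real.pi) :=
    hi.mono_set (by
      rw [Set.uIcc_of_le (by linarith), Set.uIcc_of_le (by linarith)]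
      exact Set.Icc_subset_Icc (by linarith) le_rfl)
  have hc : ∀ θ : ℝ, v * cexp (-(a : ℂ) * I) * circleMap 0 1 θ = v * cexp (I * (θ - a : ℝ)) :=
    fun θ => by
      rw [circleMap, zero_add, ofReal_one, one_mul, mul_assoc, ← Complex.exp_add]
      congr 2
      push_cast
      ring
  have j1 := intervalIntegral.integral_mono_on (g := fun _ => (0 : ℝ)) (by linarith) i1
    intervalIntegrable_const fun θ hθ => by
      refine Real.log_nonpos (norm_nonneg _) ?_
      rw [hn', div_le_one he, hc]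
      refine (hn _ ?_).le
      rw [add_sub_add_left_eq_sub, ← mul_sub_one, norm_mul, mul_comm]
      refine mul_le_mul_of_nonneg_right (Real.norm_exp_I_mul_ofReal_sub_one_le.trans ?_)
        (norm_nonneg _)
      rw [Real.norm_eq_abs, abs_le]
      constructor <;> linarith [hθ.1, hθ.2]
  have j2 := intervalIntegral.integral_mono_on (g := fun _ => S) (by linarith) i2
    intervalIntegrable_const fun θ _ => by
      rcases (norm_nonneg (g (circleMap 0 1 θ))).eq_or_lt with h | h
      · rw [← h, Real.log_zero]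
        exact hS0.le
      · rw [Real.log_le_iff_le_exp h, hn', div_le_iff₀ he, mul_left_comm, ← Real.exp_add,
          add_neg_cancel, Real.exp_zero, mul_one, hc]
        refine hb _ ?_
        rw [add_sub_cancel_left, norm_mul, mul_comm I, Complex.norm_exp_ofReal_mul_I, mul_one]
  rw [Real.circleAverage_def, ← intervalIntegral.integral_add_adjacent_intervals i1 i2, smul_eq_mul,
    inv_mul_eq_div, le_div_iff₀ (by positivity)] at h2
  simp only [intervalIntegral.integral_const, smul_eq_mul, mul_zero] at j1 j2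
  have h3 : a * S = 4 * s := by
    rw [hS]
    field_simp
  nlinarith

theorem chain {f : ℂ → ℂ} (hf : Differentiable ℂ f) {z0 z1 : ℂ} {K s r : ℝ} {n : ℕ} (hn : 1 ≤ n)
    (hK : 0 < K) (hs : 0 < s) (hr : ‖z1 - z0‖ ≤ n * r / 2)
    (hb : ∀ t : ℝ, 0 ≤ t → t ≤ 1 → ∀ w, ‖w - (z0 + t * (z1 - z0))‖ ≤ r → ‖f w‖ ≤ K)
    (hz : K * Real.exp (-s) ≤ ‖f z0‖) :
    ∃ w, ‖w - z1‖ ≤ r / 2 ∧ K * Real.exp (-((4 * n) ^ n * s)) ≤ ‖f w‖ := by
  have hn0 : (0 : ℝ) < n := by exact_mod_cast hn
  have hn1 : (1 : ℝ) ≤ n := by exact_mod_cast hn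
  have hnc : (n : ℂ) ≠ 0 := by exact_mod_cast hn0.ne'
  have hv : ‖(z1 - z0) / n‖ ≤ r / 2 := by
    rw [norm_div, Complex.norm_natCast, div_le_iff₀ hn0]
    linarith
  have hr0 : 0 ≤ r / 2 := (norm_nonneg _).trans hv
  have key : ∀ k : ℕ, k ≤ n → ∃ w, ‖w - (z0 + (k / n : ℝ) * (z1 - z0))‖ ≤ k / n * (r / 2) ∧
      K * Real.exp (-((4 * n) ^ k * s)) ≤ ‖f w‖ := by
    intro k
    induction k with
    | zero => exact fun _ => ⟨z0, by simp, by simpa using hz⟩
    | succ k ih =>
      intro hk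
      obtain ⟨w, h1, h2⟩ := ih (by omega)
      have hk1 : (k : ℝ) / n ≤ 1 := (div_le_one hn0).2 (by exact_mod_cast (by omega : k ≤ n))
      obtain ⟨w', h3, h4⟩ := arc hf (z := w) (v := (z1 - z0) / n) (a := 1 / n) hK
        (s := (4 * n) ^ k * s) (by positivity) (by positivity) ((div_le_one hn0).2 hn1)
        (fun u hu => hb (k / n) (by positivity) hk1 u (by
          refine (norm_sub_le_norm_sub_add_norm_sub _ w _).trans ?_
          nlinarith)) h2
      refine ⟨w', ?_, le_trans (le_of_eq ?_) h4⟩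
      · have e : w' - (z0 + (((k + 1 : ℕ) : ℝ) / n : ℝ) * (z1 - z0)) =
            (w' - (w + (z1 - z0) / n)) + (w - (z0 + (k / n : ℝ) * (z1 - z0))) := by
          push_cast
          field_simp
          ring
        rw [e]
        refine (norm_add_le _ _).trans ?_
        have := mul_le_mul_of_nonneg_left hv (show (0 : ℝ) ≤ 1 / n by positivity)
        rw [Nat.cast_succ, add_div]
        linarith
      · congr 3
        rw [pow_succ]
        field_simp
  obtain ⟨w, h1, h2⟩ := key n le_rfl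
  rw [div_self hn0.ne'] at h1
  exact ⟨w, by simpa using h1, h2⟩

end Vale.Agent.P321U
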