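import Mathlib

open Finset Complex MeasureTheory

namespace Vale.Agent.P321U

theorem disc {q g a u : ℝ} (hq : 0 ≤ q) (hg : 0 < g) (ha : g ≤ a) (ha' : a ≤ 1 - q)
    (hu : u ^ 2 ≤ (1 - q) * g / 4) : ‖cexp (-(a : ℂ) + u * I) - q‖ ≤ 1 - q - g / 4 := by
  have r1 : -a + 1 ≤ Real.exp (-a) := Real.add_one_le_exp _
  have r2 : Real.exp (-a) ≤ 1 - a / 2 := by
    rw [Real.exp_neg, inv_le_iff_one_le_mul₀ (Real.exp_pos a)]
    have := mul_le_mul_of_nonneg_left (Real.add_one_le_exp a) (show 0 ≤ 1 - a / 2 by linarith)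
    nlinarith
  have e : ‖cexp (-(a : ℂ) + u * I) - q‖ ^ 2 =
      (Real.exp (-a) - q) ^ 2 + 2 * (q * Real.exp (-a)) * (1 - Real.cos u) := by
    rw [Complex.sq_norm, normSq_apply]
    simp only [sub_re, sub_im, exp_re, exp_im, add_re, add_im, neg_re, neg_im, ofReal_re, ofReal_im,
      mul_re, mul_im, I_re, I_im, mul_zero, mul_one, sub_zero, add_zero, neg_zero, zero_add]
    linear_combination Real.exp (-a) ^ 2 * Real.cos_sq_add_sin_sq u
  refine le_of_pow_le_pow_left₀ two_ne_zero (by linarith) ?_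
  have h1 : (Real.exp (-a) - q) ^ 2 ≤ (1 - q - g / 2) ^ 2 :=
    pow_le_pow_left₀ (by linarith) (by linarith) 2
  have h2 : q * Real.exp (-a) ≤ 1 := mul_le_one₀ (by linarith) (Real.exp_pos _).le (by linarith)
  have h3 := mul_le_mul h2 (show 1 - Real.cos u ≤ u ^ 2 / 2 by
    linarith [Real.one_sub_sq_div_two_le_cos (x := u)]) (sub_nonneg.2 (Real.cos_le_one u))
    zero_le_one
  have h4 := mul_le_mul_of_nonneg_right (ha.trans ha') hg.le
  rw [e]
  nlinarith [mul_pos hg hg]

theorem av_int (n : ℤ) (y : ℝ) : ∫ u in (-Real.pi)..Real.pi, cexp (n * (y + (u : ℝ) * I)) =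
    if n = 0 then (2 * Real.pi : ℂ) else 0 := by
  split_ifs with h
  · simp [h, two_mul]
  · have e : ∀ u : ℝ, cexp (n * (y + u * I)) = cexp (n * y) * cexp (n * I * u) := fun u => by
      rw [← exp_add]
      ring_nf
    simp only [e]
    rw [intervalIntegral.integral_const_mul, integral_exp_mul_complex (by simp [h])]
    have : cexp (n * I * (Real.pi : ℝ)) = cexp (n * I * (-Real.pi : ℝ)) := by
      rw [← mul_one (cexp (n * I * (-Real.pi : ℝ))), ← exp_int_mul_two_pi_mul_I n, ← exp_add]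
      push_cast
      ring_nf
    rw [this, sub_self, zero_div, mul_zero]

theorem avg (a h : ℕ → ℂ) {c J L : ℕ} (hL : L ≤ c) (hJ : c < J) (y B : ℝ)
    (hB : ∀ u : ℝ, |u| ≤ Real.pi → ‖(∑ s ∈ range (L + 1), a s * cexp (y + u * I) ^ s) *
      ∑ j ∈ range J, h j * cexp (((j : ℂ) - c) * (y + u * I))‖ ≤ B) :
    ‖∑ s ∈ range (L + 1), a s * h (c - s)‖ ≤ B := by
  have pi0 := Real.pi_pos
  have k := intervalIntegral.norm_integral_le_of_norm_le_const (a := -Real.pi) (b := Real.pi)
    fun u hu => hB u (by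
      rw [Set.uIoc_of_le (by linarith)] at hu
      exact abs_le.2 ⟨hu.1.le, hu.2⟩)
  have e : ∀ u : ℝ, (∑ s ∈ range (L + 1), a s * cexp (y + u * I) ^ s) *
      ∑ j ∈ range J, h j * cexp (((j : ℂ) - c) * (y + u * I)) = ∑ s ∈ range (L + 1), ∑ j ∈ range J,
        a s * h j * cexp (((s : ℤ) + j - c : ℤ) * (y + u * I)) := fun u => by
    rw [sum_mul_sum]
    refine sum_congr rfl fun s _ => sum_congr rfl fun j _ => ?_
    rw [← exp_nat_mul, mul_mul_mul_comm, ← exp_add]
    push_cast
    ring_nf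
  simp only [e] at k
  rw [intervalIntegral.integral_finsetSum fun s _ => Continuous.intervalIntegrable (by fun_prop) _ _,
    sum_congr rfl (g := fun s => a s * h (c - s) * (2 * Real.pi)) fun s hs => by
      rw [intervalIntegral.integral_finsetSum fun j _ =>
        Continuous.intervalIntegrable (by fun_prop) _ _, sum_eq_single (c - s)]
      · rw [intervalIntegral.integral_const_mul, av_int, if_pos (by rw [mem_range] at hs; omega)]
      · intro j _ hj
        rw [intervalIntegral.integral_const_mul, av_int, if_neg (by rw [mem_range] at hs; omega),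
          mul_zero]
      · exact fun k => absurd (mem_range.2 (by omega)) k,
    ← sum_mul, norm_mul, abs_of_pos (by linarith)] at k
  have e2 : ‖(2 * Real.pi : ℂ)‖ = Real.pi - -Real.pi := by
    rw [sub_neg_eq_add, ← two_mul]
    simp [abs_of_pos pi0]
  rw [e2] at k
  exact le_of_mul_le_mul_right k (by linarith)

end Vale.Agent.P321U
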