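import Mathlib

/-! Powers of the box kernel. -/

open Finset Complex

namespace Vale.Agent.P321U

theorem box (L m : ℕ) (hL : 1 ≤ L) : ∃ r : ℕ → ℝ, (∀ s, 0 ≤ r s) ∧
    ∑ s ∈ range (m * L + 1), r s = 1 ∧
    ∀ z : ℂ, ∑ s ∈ range (m * L + 1), r s * z ^ s = ((∑ i ∈ range L, z ^ i) / L) ^ m := by
  let p : Polynomial NNReal := (Polynomial.C (L : NNReal)⁻¹ * ∑ i ∈ range L, Polynomial.X ^ i) ^ m
  have hd : p.natDegree < m * L + 1 := by
    refine Nat.lt_succ_of_le (Polynomial.natDegree_pow_le.trans (Nat.mul_le_mul_left _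
      ((Polynomial.natDegree_C_mul_le _ _).trans ?_)))
    exact Polynomial.natDegree_sum_le_of_forall_le _ _ fun i hi =>
      (Polynomial.natDegree_X_pow_le i).trans (mem_range.1 hi).le
  have key : ∀ z : ℂ, ∑ s ∈ range (m * L + 1), ((p.coeff s : ℝ) : ℂ) * z ^ s =
      ((∑ i ∈ range L, z ^ i) / L) ^ m := fun z => by
    refine (Polynomial.eval₂_eq_sum_range' (ofRealHom.comp NNReal.toRealHom) hd z).symm.trans ?_
    simp [p, Polynomial.eval₂_pow, Polynomial.eval₂_finsetSum, div_eq_inv_mul]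
  refine ⟨fun s => p.coeff s, fun s => NNReal.coe_nonneg _, ?_, key⟩
  have h := key 1
  have h0 : (L : ℂ) ≠ 0 := Nat.cast_ne_zero.2 (by omega)
  simp only [one_pow, mul_one, sum_const, card_range, nsmul_eq_mul, div_self h0] at h
  beta_reduce
  exact_mod_cast h

theorem box_low {x t : ℝ} (h2 : |t| ≤ 4) : |t| / 4 ≤ ‖cexp (x + t * I) - 1‖ := by
  have hp := Real.pi_gt_three
  rcases le_total |t| (Real.pi / 2) with h | h
  · have h3 : (cexp (x + t * I) - 1) * cexp ((-t : ℝ) * I) = cexp x - cexp ((-t : ℝ) * I) := by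
      rw [sub_mul, ← exp_add]
      simp
    have h4 := abs_im_le_norm (cexp x - cexp ((-t : ℝ) * I))
    rw [← h3, norm_mul, norm_exp_ofReal_mul_I, mul_one, h3, sub_im, exp_ofReal_im,
      exp_ofReal_mul_I_im, Real.sin_neg, sub_neg_eq_add, zero_add] at h4
    refine le_trans ?_ ((Real.mul_abs_le_abs_sin h).trans h4)
    rw [div_eq_inv_mul]
    refine mul_le_mul_of_nonneg_right ?_ (abs_nonneg _)
    rw [le_div_iff₀ Real.pi_pos]
    linarith [Real.pi_lt_four]
  · have h3 := Real.cos_nonpos_of_pi_div_two_le_of_le h (by linarith)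
    rw [Real.cos_abs] at h3
    have h4 := (neg_le_abs _).trans (abs_re_le_norm (cexp (x + t * I) - 1))
    rw [sub_re, exp_re] at h4
    simp only [add_re, ofReal_re, mul_re, I_re, mul_zero, ofReal_im, I_im, mul_one, sub_self,
      add_zero, add_im, mul_im, zero_add, one_re] at h4
    nlinarith [mul_nonneg (Real.exp_pos x).le (neg_nonneg.2 h3)]

theorem box_out {L : ℕ} (hL : 1 ≤ L) {x t : ℝ} (hx : x * L ≤ 1 / 2) (h1 : 45 ≤ |t| * L)
    (h2 : |t| ≤ 4) : ‖(∑ i ∈ range L, cexp (x + t * I) ^ i) / L‖ ≤ Real.exp (-1) := by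
  have h0 : (0 : ℝ) < L := Nat.cast_pos.2 hL
  have h3 := box_low (x := x) h2
  have h4 := congrArg norm (geom_sum_mul (cexp (x + t * I)) L)
  have h5 : ‖cexp (x + t * I) ^ L - 1‖ ≤ 3 := by
    refine (norm_sub_le _ _).trans ?_
    rw [norm_pow, norm_exp, ← Real.exp_nat_mul, norm_one]
    have h6 : Real.exp (L * (x + t * I : ℂ).re) ≤ Real.exp (1 / 2) :=
      Real.exp_le_exp.2 (by simpa [mul_comm] using hx)
    have h7 : Real.exp (1 / 2) * Real.exp (1 / 2) = Real.exp 1 := by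
      rw [← Real.exp_add]; norm_num
    nlinarith [Real.exp_one_lt_d9, Real.exp_pos (1 / 2)]
  rw [norm_mul] at h4
  have h8 := mul_le_mul_of_nonneg_left h3 (norm_nonneg (∑ i ∈ range L, cexp (x + t * I) ^ i))
  have h9 : (1 : ℝ) / 3 ≤ Real.exp (-1) := by
    rw [Real.exp_neg, ← one_div]
    exact one_div_le_one_div_of_le (Real.exp_pos _) (by linarith [Real.exp_one_lt_d9])
  rw [norm_div, norm_natCast, div_le_iff₀ h0]
  by_contra hn
  have h10 : L / 3 ≤ ‖∑ i ∈ range L, cexp (x + t * I) ^ i‖ := by nlinarith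
  nlinarith [mul_le_mul_of_nonneg_right h10 (abs_nonneg t)]

theorem box_in {L : ℕ} (hL : 1 ≤ L) {x y t : ℝ} (hxy : x ≤ y) (hy : 0 ≤ y) :
    ‖(∑ i ∈ range L, cexp (x + t * I) ^ i) / L‖ ≤ Real.exp (y * L) := by
  have h0 : (0 : ℝ) < L := Nat.cast_pos.2 hL
  rw [norm_div, norm_natCast, div_le_iff₀' h0]
  refine (norm_sum_le _ _).trans ((sum_le_card_nsmul _ _ (Real.exp (y * L)) fun i hi => ?_).trans
    (by simp))
  rw [norm_pow, norm_exp, ← Real.exp_nat_mul]
  have h1 : (i : ℝ) ≤ L := Nat.cast_le.2 (mem_range.1 hi).le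
  refine Real.exp_le_exp.2 ?_
  simp only [add_re, ofReal_re, mul_re, I_re, mul_zero, ofReal_im, I_im, mul_one, sub_self,
    add_zero]
  nlinarith [mul_le_mul_of_nonneg_left hxy (Nat.cast_nonneg (α := ℝ) i)]

end Vale.Agent.P321U
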