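import Vale.Agent.P321U.L1
import Vale.Agent.P321U.Avg
import Vale.Agent.P321U.Box

open Finset Complex MeasureTheory

namespace Vale.Agent.P321U

theorem band {h : ℕ → ℂ} {c Λ m : ℕ} {γ K a ξ κ τ : ℝ} {ρ : ℕ → ℝ} (hγ : 0 < γ) (hγ1 : γ ≤ 1 / 2)
    (hΛ1 : 1 ≤ 10000 * γ * Λ) (hΛ2 : γ * Λ ≤ 1) (ha : 0 ≤ a) (hξ : |ξ| ≤ γ)
    (hρ : ∀ z : ℂ, ∑ s ∈ range (m * Λ + 1), (ρ s : ℂ) * z ^ s =
      ((∑ i ∈ range Λ, z ^ i) / Λ) ^ m)
    (hL : m * Λ ≤ c) (hK : ∀ J, l1 h c J (γ / 2) ≤ K) (hκ : κ ≤ ‖tst ρ (m * Λ) a ξ h c‖)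
    (h1 : K * Real.exp (-(m : ℝ)) < κ) (hτ : 0 ≤ τ) (h2 : τ * Real.exp (γ / 2 * Λ * m) < κ) :
    Low h c γ τ := by
  intro J hJ
  by_contra hc
  push Not at hc
  have hΛ : 1 ≤ Λ := Nat.one_le_iff_ne_zero.2 (by rintro rfl; norm_num at hΛ1)
  have L0 : (0 : ℝ) < Λ := Nat.cast_pos.2 hΛ
  have K0 : 0 ≤ K := le_trans (sum_nonneg fun j _ => by positivity) (hK 0)
  have key := avg (fun s => (ρ s : ℂ) * cexp (-(a : ℂ) + ξ * I) ^ s) h hL (by omega : c < J)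
    (γ / 2) (max (K * Real.exp (-(m : ℝ))) (τ * Real.exp (γ / 2 * Λ * m))) fun u hu => by
      have e : ∑ s ∈ range (m * Λ + 1), (ρ s : ℂ) * cexp (-(a : ℂ) + ξ * I) ^ s *
          cexp ((γ / 2 : ℝ) + u * I) ^ s =
          ((∑ i ∈ range Λ, cexp ((γ / 2 - a : ℝ) + (ξ + u : ℝ) * I) ^ i) / Λ) ^ m := by
        rw [← hρ]
        refine sum_congr rfl fun s _ => ?_
        rw [mul_assoc, ← mul_pow, ← exp_add]
        congr 3
        push_cast
        ring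
      rw [e, norm_mul, norm_pow, mul_comm]
      by_cases hu' : |u| ≤ 500000 * γ
      · refine le_trans ?_ (le_max_right _ _)
        have b1 := box_in (x := γ / 2 - a) (y := γ / 2) (t := ξ + u) hΛ (by linarith) (by linarith)
        have b2 := pow_le_pow_left₀ (norm_nonneg _) b1 m
        rw [← Real.exp_nat_mul, mul_comm (m : ℝ)] at b2
        have b3 : ‖gf h c J ((γ / 2 : ℝ) + u * I)‖ ≤ τ := by
          linarith [hc u hu', Real.exp_pos (-(γ * ((J : ℝ) - c) / 2))]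
        exact mul_le_mul b3 b2 (by positivity) hτ
      · refine le_trans ?_ (le_max_left _ _)
        rw [not_le] at hu'
        have t1 : 499999 * γ ≤ |ξ + u| := by
          have := abs_add_le (ξ + u) (-ξ)
          rw [abs_neg, show ξ + u + -ξ = u by ring] at this
          linarith
        have t2 : |ξ + u| ≤ 4 := by linarith [abs_add_le ξ u, Real.pi_lt_d2]
        have b1 := box_out (x := γ / 2 - a) (t := ξ + u) hΛ (by nlinarith) (by nlinarith) t2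
        have b2 := pow_le_pow_left₀ (norm_nonneg _) b1 m
        rw [← Real.exp_nat_mul, mul_neg_one] at b2
        have b3 : ‖gf h c J ((γ / 2 : ℝ) + u * I)‖ ≤ K := by
          refine (norm_gf_le h c J _).trans (le_trans (le_of_eq ?_) (hK J))
          congr 1
          simp
        exact mul_le_mul b3 b2 (by positivity) K0
  exact absurd (hκ.trans key) (not_le.2 (max_lt h1 h2))

theorem tst_pick {h : ℕ → ℂ} {d L : ℕ} {a ξ κ : ℝ} {ρ : ℕ → ℝ} (ha : 0 ≤ a) (hρ : ∀ s, 0 ≤ ρ s)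
    (h1 : ∑ s ∈ range (L + 1), ρ s = 1) (hκ : κ ≤ ‖tst ρ L a ξ h d‖) :
    ∃ s, s ≤ L ∧ κ ≤ ‖h (d - s)‖ := by
  obtain ⟨s, hs, hm⟩ := exists_max_image (range (L + 1)) (fun s => ‖h (d - s)‖)
    ⟨0, mem_range.2 (Nat.succ_pos L)⟩
  refine ⟨s, Nat.lt_succ_iff.1 (mem_range.1 hs), hκ.trans ((norm_sum_le _ _).trans ?_)⟩
  have z : ‖cexp (-(a : ℂ) + ξ * I)‖ ≤ 1 := by
    rw [norm_exp]
    exact Real.exp_le_one_iff.2 (by simpa using ha)
  calc _ ≤ ∑ t ∈ range (L + 1), ρ t * ‖h (d - s)‖ := sum_le_sum fun t ht => by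
        rw [norm_mul, norm_mul, norm_pow, norm_real, Real.norm_of_nonneg (hρ t)]
        exact mul_le_mul (mul_le_of_le_one_right (hρ t) (pow_le_one₀ (norm_nonneg _) z)) (hm t ht)
          (norm_nonneg _) (hρ t)
    _ = _ := by rw [← sum_mul, h1, one_mul]

end Vale.Agent.P321U
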