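import Mathlib

/-! A two constants estimate for polynomials on the unit circle. -/

open Complex Real MeasureTheory Set Filter Topology Metric

namespace Vale.Agent.P321U

theorem jen_refl (s : Multiset ℂ) : ∃ f : ℂ → ℂ, Differentiable ℂ f ∧
    (∀ Z, ‖Z‖ = 1 → ‖f Z‖ = ‖(s.map fun z => Z - z).prod‖) ∧
    ∀ Z, ‖Z‖ < 1 → ‖(s.map fun z => Z - z).prod‖ ≤ ‖f Z‖ ∧ f Z ≠ 0 := by
  induction s using Multiset.induction_on with
  | empty => exact ⟨fun _ => 1, by fun_prop, by simp, by simp⟩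
  | cons z s ih =>
    obtain ⟨f, h1, h2, h3⟩ := ih
    by_cases hz : ‖z‖ < 1
    · have key : ∀ Z : ℂ, ‖1 - (starRingEnd ℂ) z * Z‖ ^ 2 - ‖Z - z‖ ^ 2 =
          (1 - ‖z‖ ^ 2) * (1 - ‖Z‖ ^ 2) := by
        intro Z
        simp only [Complex.sq_norm, Complex.normSq_apply, sub_re, sub_im, mul_re, mul_im, one_re,
          one_im, conj_re, conj_im]
        ring
      refine ⟨fun Z => (1 - (starRingEnd ℂ) z * Z) * f Z, by fun_prop, fun Z hZ => ?_, fun Z hZ => ?_⟩
      · rw [Multiset.map_cons, Multiset.prod_cons, norm_mul, norm_mul, h2 Z hZ]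
        congr 1
        have := key Z
        rw [hZ] at this
        exact (pow_left_inj₀ (norm_nonneg _) (norm_nonneg _) two_ne_zero).1 (by linarith)
      · rw [Multiset.map_cons, Multiset.prod_cons, norm_mul, norm_mul]
        have h4 : 0 < (1 - ‖z‖ ^ 2) * (1 - ‖Z‖ ^ 2) :=
          mul_pos (by nlinarith [norm_nonneg z]) (by nlinarith [norm_nonneg Z])
        have h5 : ‖Z - z‖ < ‖1 - (starRingEnd ℂ) z * Z‖ :=
          lt_of_pow_lt_pow_left₀ 2 (norm_nonneg _) (by linarith [key Z])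
        exact ⟨mul_le_mul h5.le (h3 Z hZ).1 (norm_nonneg _) (norm_nonneg _),
          mul_ne_zero (norm_pos_iff.1 ((norm_nonneg _).trans_lt h5)) (h3 Z hZ).2⟩
    · refine ⟨fun Z => (Z - z) * f Z, by fun_prop, fun Z hZ => ?_, fun Z hZ => ?_⟩
      · rw [Multiset.map_cons, Multiset.prod_cons, norm_mul, norm_mul, h2 Z hZ]
      · rw [Multiset.map_cons, Multiset.prod_cons, norm_mul, norm_mul]
        refine ⟨mul_le_mul_of_nonneg_left (h3 Z hZ).1 (norm_nonneg _),
          mul_ne_zero (sub_ne_zero.2 ?_) (h3 Z hZ).2⟩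
        rintro rfl
        exact hz hZ

theorem jen_ker_cont {w : ℂ} (hw : ‖w‖ < 1) :
    Continuous fun θ : ℝ => poissonKernel 0 w (circleMap 0 1 θ) := by
  simp only [poissonKernel_def]
  refine Continuous.div (by fun_prop) (by fun_prop) fun θ => pow_ne_zero _ (norm_ne_zero_iff.2 ?_)
  intro h
  have h1 : circleMap 0 1 θ = w := by simpa [sub_eq_zero] using h
  have h2 : ‖circleMap 0 1 θ‖ = 1 := by simp
  rw [h1] at h2
  linarith

theorem jen_ker_nonneg {w : ℂ} (hw : ‖w‖ < 1) (θ : ℝ) : 0 ≤ poissonKernel 0 w (circleMap 0 1 θ) := by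
  rw [poissonKernel_def]
  refine div_nonneg ?_ (by positivity)
  have h2 : ‖circleMap 0 1 θ‖ = 1 := by simp
  rw [sub_zero, sub_zero, h2]
  nlinarith [norm_nonneg w]

theorem jen_sub {f : ℂ → ℂ} (hf : Differentiable ℂ f) (h0 : ∀ Z, ‖Z‖ < 1 → f Z ≠ 0) {w : ℂ}
    (hw : ‖w‖ < 1) {ε : ℝ} (hε : 0 < ε) :
    Real.log ‖f w‖ ≤ (2 * π)⁻¹ * ∫ θ in (0 : ℝ)..2 * π,
      poissonKernel 0 w (circleMap 0 1 θ) * Real.log (max ‖f (circleMap 0 1 θ)‖ ε) := by
  have hc := hf.continuous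
  have hk := jen_ker_cont hw
  have hm : Continuous fun z : ℝ × ℝ => Real.log (max ‖f (z.1 * circleMap 0 1 z.2)‖ ε) :=
    Continuous.log (by fun_prop) fun z => (hε.trans_le (le_max_right _ _)).ne'
  have h1 : Continuous fun r : ℝ => (2 * π)⁻¹ * ∫ θ in (0 : ℝ)..2 * π,
      poissonKernel 0 w (circleMap 0 1 θ) * Real.log (max ‖f (r * circleMap 0 1 θ)‖ ε) := by
    refine continuous_const.mul
      (intervalIntegral.continuous_parametric_intervalIntegral_of_continuous' ?_ _ _)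
    exact (hk.comp continuous_snd).mul hm
  have h2 : ContinuousAt (fun r : ℝ => Real.log ‖f (r * w)‖) 1 := by
    refine ContinuousAt.log (by fun_prop) ?_
    simpa using h0 w hw
  have h3 : ∀ r ∈ Ioo (0 : ℝ) 1, Real.log ‖f (r * w)‖ ≤ (2 * π)⁻¹ * ∫ θ in (0 : ℝ)..2 * π,
      poissonKernel 0 w (circleMap 0 1 θ) * Real.log (max ‖f (r * circleMap 0 1 θ)‖ ε) := by
    intro r hr
    have hne : ∀ Z : ℂ, ‖Z‖ ≤ 1 → f (r * Z) ≠ 0 := fun Z hZ => h0 _ (by
      rw [norm_mul, Complex.norm_real, Real.norm_of_nonneg hr.1.le]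
      nlinarith [norm_nonneg Z, hr.1, hr.2])
    have hd : Differentiable ℂ fun Z : ℂ => f (r * Z) := by fun_prop
    have h4 : InnerProductSpace.HarmonicOnNhd (fun Z : ℂ => Real.log ‖f (r * Z)‖) (closedBall 0 1) :=
      fun Z hZ => (hd.analyticAt Z).harmonicAt_log_norm (hne Z (by simpa using hZ))
    have h5 := h4.circleAverage_poissonKernel_smul (w := w) (by simpa using hw)
    rw [← h5, circleAverage_def, smul_eq_mul]
    refine mul_le_mul_of_nonneg_left ?_ (by positivity)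
    have h6 : ∀ θ : ℝ, ‖circleMap 0 1 θ‖ ≤ 1 := fun θ => by simp
    refine intervalIntegral.integral_mono_on (by positivity) (Continuous.intervalIntegrable ?_ _ _)
      (Continuous.intervalIntegrable ?_ _ _) fun θ _ => ?_
    · exact hk.mul (Continuous.log (by fun_prop) fun θ => norm_ne_zero_iff.2 (hne _ (h6 θ)))
    · exact hk.mul (hm.comp (Continuous.prodMk_right r))
    · exact mul_le_mul_of_nonneg_left
        (Real.log_le_log (norm_pos_iff.2 (hne _ (h6 θ))) (le_max_left _ _)) (jen_ker_nonneg hw θ)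
  have h7 := le_of_tendsto_of_tendsto (b := 𝓝[<] (1 : ℝ)) (h2.tendsto.mono_left nhdsWithin_le_nhds)
    (h1.continuousAt.tendsto.mono_left nhdsWithin_le_nhds)
    (by filter_upwards [Ioo_mem_nhdsLT zero_lt_one] with r hr using h3 r hr)
  simpa using h7

theorem jen_ker_int {w : ℂ} (hw : ‖w‖ < 1) :
    ∫ θ in (0 : ℝ)..2 * π, poissonKernel 0 w (circleMap 0 1 θ) = 2 * π := by
  have h4 : InnerProductSpace.HarmonicOnNhd (fun _ : ℂ => (1 : ℝ)) (closedBall 0 1) :=
    fun Z _ => InnerProductSpace.harmonicAt_const 1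
  have h5 := h4.circleAverage_poissonKernel_smul (w := w) (by simpa using hw)
  rw [circleAverage_def, smul_eq_mul] at h5
  simp only [Pi.smul_apply', smul_eq_mul, mul_one] at h5
  field_simp at h5
  linarith

/-- The two constants estimate. -/
theorem jen (H : Polynomial ℂ) {w : ℂ} (hw : ‖w‖ < 1) {M τ ε κ a : ℝ} (hε : 0 < ε) (hεM : ε < M)
    (hτ : 0 < τ) (hκ : 0 < κ) (ha : a ≤ π) (hM : ∀ θ : ℝ, ‖H.eval (cexp (θ * I))‖ ≤ M)
    (hw' : τ ≤ ‖H.eval w‖) (hP : ∀ θ : ℝ, |θ| ≤ a → κ * ‖cexp (θ * I) - w‖ ^ 2 ≤ 1 - ‖w‖ ^ 2) :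
    volume.real {θ : ℝ | |θ| ≤ a ∧ ‖H.eval (cexp (θ * I))‖ < ε} ≤
      2 * π * Real.log (M / τ) / (κ * Real.log (M / ε)) := by
  obtain ⟨f, h1, h2, h3⟩ := jen_refl H.roots
  have hs := (IsAlgClosed.splits H).eval_eq_prod_roots
  have ha0 : H.leadingCoeff ≠ 0 := by
    intro h
    rw [hs w, h, zero_mul, norm_zero] at hw'
    linarith
  have hcm : ∀ θ : ℝ, circleMap 0 1 θ = cexp (θ * I) := fun θ => by simp [circleMap]
  have hn : ∀ θ : ℝ, ‖cexp (θ * I)‖ = 1 := fun θ => Complex.norm_exp_ofReal_mul_I θ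
  have h4 := jen_sub (f := fun Z => H.leadingCoeff * f Z) (by fun_prop)
    (fun Z hZ => mul_ne_zero ha0 (h3 Z hZ).2) hw hε
  have h5 : ∀ θ : ℝ, ‖H.leadingCoeff * f (circleMap 0 1 θ)‖ = ‖H.eval (cexp (θ * I))‖ := fun θ => by
    rw [hcm, hs, norm_mul, norm_mul, h2 _ (hn θ)]
  have h6 : Real.log τ ≤ Real.log ‖H.leadingCoeff * f w‖ := by
    refine Real.log_le_log hτ (hw'.trans ?_)
    rw [hs, norm_mul, norm_mul]
    exact mul_le_mul_of_nonneg_left (h3 w hw).1 (norm_nonneg _)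
  simp only [h5] at h4
  set E := {θ : ℝ | |θ| ≤ a ∧ ‖H.eval (cexp (θ * I))‖ < ε} with hE
  have hH : Continuous fun θ : ℝ => ‖H.eval (cexp (θ * I))‖ := by fun_prop
  have hEm : MeasurableSet E :=
    (isClosed_le continuous_abs continuous_const).measurableSet.inter
      (isOpen_lt hH continuous_const).measurableSet
  have hk := jen_ker_cont hw
  have hl : Continuous fun θ : ℝ => Real.log (max ‖H.eval (cexp (θ * I))‖ ε) :=
    Continuous.log (hH.max continuous_const) fun θ => (hε.trans_le (le_max_right _ _)).ne'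
  have hg : Continuous fun θ : ℝ => poissonKernel 0 w (circleMap 0 1 θ) *
      (Real.log M - Real.log (max ‖H.eval (cexp (θ * I))‖ ε)) :=
    hk.mul (continuous_const.sub hl)
  have hper : Function.Periodic (fun θ : ℝ => poissonKernel 0 w (circleMap 0 1 θ) *
      (Real.log M - Real.log (max ‖H.eval (cexp (θ * I))‖ ε))) (2 * π) := fun θ => by
    simp only [← hcm, periodic_circleMap 0 1 θ]
  have h7 := hper.intervalIntegral_add_eq (-π) 0
  rw [zero_add, show -π + 2 * π = π by ring] at h7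
  have h8 : ∫ θ in (0 : ℝ)..2 * π, poissonKernel 0 w (circleMap 0 1 θ) *
      (Real.log M - Real.log (max ‖H.eval (cexp (θ * I))‖ ε)) ≤ 2 * π * Real.log (M / τ) := by
    have i1 : IntervalIntegrable (fun θ : ℝ => poissonKernel 0 w (circleMap 0 1 θ) * Real.log M)
        volume 0 (2 * π) := (hk.mul continuous_const).intervalIntegrable _ _
    have i2 : IntervalIntegrable (fun θ : ℝ => poissonKernel 0 w (circleMap 0 1 θ) *
        Real.log (max ‖H.eval (cexp (θ * I))‖ ε)) volume 0 (2 * π) :=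
      (hk.mul hl).intervalIntegrable _ _
    simp only [mul_sub]
    rw [intervalIntegral.integral_sub i1 i2,
      intervalIntegral.integral_mul_const, jen_ker_int hw, Real.log_div (hε.trans hεM).ne' hτ.ne']
    have h9 := mul_le_mul_of_nonneg_left (h6.trans h4) (show 0 ≤ 2 * π by positivity)
    rw [← mul_assoc, mul_inv_cancel₀ (by positivity), one_mul] at h9
    linarith
  have hL : 0 < Real.log (M / ε) := Real.log_pos ((one_lt_div hε).2 hεM)
  have hsub : E ⊆ Icc (-π) π := fun θ hθ => by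
    have := abs_le.1 (hθ.1.trans ha)
    exact ⟨this.1, this.2⟩
  have h9 : κ * Real.log (M / ε) * volume.real E ≤ ∫ θ in (-π)..π,
      poissonKernel 0 w (circleMap 0 1 θ) *
        (Real.log M - Real.log (max ‖H.eval (cexp (θ * I))‖ ε)) := by
    rw [intervalIntegral.integral_of_le (by linarith [pi_pos]), ← integral_Icc_eq_integral_Ioc]
    have hfin : volume E ≠ ⊤ := ne_top_of_le_ne_top measure_Icc_lt_top.ne (measure_mono hsub)
    refine le_trans (setIntegral_ge_of_const_le_real hEm hfin (fun θ hθ => ?_)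
      (hg.integrableOn_Icc.mono_set hsub)) (setIntegral_mono_set hg.integrableOn_Icc
        (Eventually.of_forall fun θ => ?_) hsub.eventuallyLE)
    · rw [max_eq_right hθ.2.le, ← Real.log_div (hε.trans hεM).ne' hε.ne']
      refine mul_le_mul_of_nonneg_right ?_ hL.le
      rw [poissonKernel_def, hcm, sub_zero, sub_zero, hn, one_pow, le_div_iff₀]
      · exact hP θ hθ.1
      · refine pow_pos (norm_pos_iff.2 (sub_ne_zero.2 fun h => ?_)) _
        have := hn θ
        rw [h] at this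
        linarith
    · exact mul_nonneg (jen_ker_nonneg hw θ) (sub_nonneg.2 (Real.log_le_log
        (hε.trans_le (le_max_right _ _)) (max_le (hM θ) hεM.le)))
  rw [le_div_iff₀ (mul_pos hκ hL)]
  linarith

theorem jen_kap {lam t0 θ : ℝ} (h0 : 0 < lam) (h1 : lam ≤ 1 / 2) :
    ‖cexp (θ * I) - cexp (t0 * I - lam)‖ ^ 2 ≤ lam ^ 2 + (θ - t0) ^ 2 ∧
      lam ≤ 1 - ‖cexp (t0 * I - lam)‖ ^ 2 := by
  have e1 : ‖cexp (t0 * I - lam)‖ = Real.exp (-lam) := by simp [Complex.norm_exp]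
  have e2 : 1 - lam ≤ Real.exp (-lam) := by linarith [Real.add_one_le_exp (-lam)]
  have e3 : Real.exp (-lam) ≤ 1 := Real.exp_le_one_iff.2 (by linarith)
  constructor
  · have e4 : cexp (θ * I) - cexp (t0 * I - lam) =
        cexp (t0 * I) * ((cexp (((θ - t0 : ℝ) : ℂ) * I)) - (Real.exp (-lam) : ℝ)) := by
      rw [mul_sub, ← Complex.exp_add, Complex.ofReal_exp, ← Complex.exp_add]
      congr 2 <;> push_cast <;> ring
    rw [e4, norm_mul, Complex.norm_exp_ofReal_mul_I, one_mul, Complex.sq_norm, Complex.normSq_apply]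
    simp only [sub_re, sub_im, exp_ofReal_mul_I_re, exp_ofReal_mul_I_im, ofReal_re, ofReal_im,
      sub_zero]
    have e5 := Real.one_sub_sq_div_two_le_cos (x := θ - t0)
    have e6 := Real.sin_sq_add_cos_sq (θ - t0)
    have e7 := Real.cos_le_one (θ - t0)
    have e8 := Real.exp_pos (-lam)
    nlinarith [mul_nonneg (sub_nonneg.2 e3) (sub_nonneg.2 e7)]
  · rw [e1, ← Real.exp_nat_mul]
    have e5 : Real.exp ((2 : ℕ) * -lam) * (1 + 2 * lam) ≤ 1 := by
      have := Real.add_one_le_exp (2 * lam)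
      have e6 : Real.exp ((2 : ℕ) * -lam) * Real.exp (2 * lam) = 1 := by
        rw [← Real.exp_add]; simp
      nlinarith [Real.exp_pos ((2 : ℕ) * -lam)]
    nlinarith [Real.exp_pos ((2 : ℕ) * -lam)]

theorem jen_eval (h : ℕ → ℂ) (N : ℕ) (Z : ℂ) :
    (∑ j ∈ Finset.range N, Polynomial.C (h j) * Polynomial.X ^ j).eval Z =
      ∑ j ∈ Finset.range N, h j * Z ^ j := by
  simp [Polynomial.eval_finsetSum]

theorem jen_bd (h : ℕ → ℂ) (N : ℕ) (θ : ℝ) :
    ‖∑ j ∈ Finset.range N, h j * cexp (θ * I) ^ j‖ ≤ ∑ j ∈ Finset.range N, ‖h j‖ :=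
  (norm_sum_le _ _).trans (le_of_eq (Finset.sum_congr rfl fun j _ => by
    rw [norm_mul, norm_pow, Complex.norm_exp_ofReal_mul_I, one_pow, mul_one]))

/-- Finite sums, inner point `exp (i t0 - lam)`. -/
theorem jen_sum (h : ℕ → ℂ) (N : ℕ) {lam t0 a M τ ε : ℝ} (h0 : 0 < lam) (h1 : lam ≤ 1 / 2)
    (ha : a ≤ π) (hε : 0 < ε) (hεM : ε < M) (hτ : 0 < τ)
    (hM : ∑ j ∈ Finset.range N, ‖h j‖ ≤ M)
    (hw : τ ≤ ‖∑ j ∈ Finset.range N, h j * cexp (t0 * I - lam) ^ j‖) :
    volume.real {θ : ℝ | |θ| ≤ a ∧ ‖∑ j ∈ Finset.range N, h j * cexp (θ * I) ^ j‖ < ε} ≤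
      2 * π * Real.log (M / τ) * (lam ^ 2 + (a + |t0|) ^ 2) / (lam * Real.log (M / ε)) := by
  have hp : 0 < lam ^ 2 + (a + |t0|) ^ 2 := by positivity
  have hw1 : ‖cexp (t0 * I - lam)‖ < 1 := by
    have := (jen_kap (t0 := t0) (θ := 0) h0 h1).2
    nlinarith [norm_nonneg (cexp (t0 * I - lam))]
  have key := jen (∑ j ∈ Finset.range N, Polynomial.C (h j) * Polynomial.X ^ j) hw1
    (κ := lam / (lam ^ 2 + (a + |t0|) ^ 2)) hε hεM hτ (by positivity) ha
    (fun θ => by rw [jen_eval]; exact (jen_bd h N θ).trans hM) (by rwa [jen_eval]) fun θ hθ => by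
      obtain ⟨k1, k2⟩ := jen_kap (t0 := t0) (θ := θ) h0 h1
      have k3 : (θ - t0) ^ 2 ≤ (a + |t0|) ^ 2 := by
        rw [← sq_abs (θ - t0)]
        exact pow_le_pow_left₀ (abs_nonneg _) ((abs_sub θ t0).trans (by linarith)) 2
      rw [div_mul_eq_mul_div, div_le_iff₀ hp]
      nlinarith
  simp only [jen_eval] at key
  refine key.trans (le_of_eq ?_)
  field_simp

/-- Finite sums, inner point `0`. -/
theorem jen_zero (h : ℕ → ℂ) (N : ℕ) {a M τ ε : ℝ} (hN : 0 < N) (ha : a ≤ π) (hε : 0 < ε)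
    (hεM : ε < M) (hτ : 0 < τ) (hM : ∑ j ∈ Finset.range N, ‖h j‖ ≤ M) (hw : τ ≤ ‖h 0‖) :
    volume.real {θ : ℝ | |θ| ≤ a ∧ ‖∑ j ∈ Finset.range N, h j * cexp (θ * I) ^ j‖ < ε} ≤
      2 * π * Real.log (M / τ) / Real.log (M / ε) := by
  have key := jen (∑ j ∈ Finset.range N, Polynomial.C (h j) * Polynomial.X ^ j) (w := 0) (by simp)
    (κ := 1) hε hεM hτ one_pos ha
    (fun θ => by rw [jen_eval]; exact (jen_bd h N θ).trans hM)
    (by
      rw [jen_eval, Finset.sum_eq_single 0 (fun j _ hj => by simp [hj]) (fun hj => by simp at hj; omega)]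
      simpa using hw)
    fun θ _ => by simp [Complex.norm_exp_ofReal_mul_I]
  simpa only [jen_eval, one_mul] using key

end Vale.Agent.P321U
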