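import Vale.Agent.P321U.Pr
import Vale.Agent.P321U.Jen

open Finset Complex MeasureTheory

namespace Vale.Agent.P321U

theorem bs_log (c : ℕ) : 1 / 2 ≤ Real.log (c + 2) := by
  have h1 : Real.log 2 ≤ Real.log (c + 2) :=
    Real.log_le_log two_pos (by linarith [Nat.cast_nonneg (α := ℝ) c])
  linarith [Real.log_two_gt_d9]

theorem bs_N {c : ℕ} {γ N : ℝ} (hγ : 0 < γ) (hγ1 : γ ≤ 1) (hN : 10 * Real.log (c + 2) / γ ≤ N) :
    10 * Real.log (c + 2) ≤ N := by
  have hL := bs_log c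
  refine le_trans ?_ hN
  rw [le_div_iff₀ hγ]
  nlinarith

theorem bs_dec {h a : ℕ → ℂ} {c : ℕ} {q γ : ℝ} (hq : 0 ≤ q) (hγ : 0 < γ) (hγq : γ ≤ 1 - q)
    (h0 : h 0 = 0) (hr : ∀ j, h (j + 1) = (1 - q : ℝ) * a j + q * h j) (ha : ∀ j, ‖a j‖ ≤ 1)
    (hz : ∀ j, c < j → a j = 0) (j : ℕ) : ‖h j‖ ≤ Real.exp (γ - γ * ((j : ℝ) - c)) := by
  have hp : 0 ≤ 1 - q := by linarith
  have h1 : ∀ j, ‖h j‖ ≤ 1 := by
    intro j
    induction j with
    | zero => rw [h0, norm_zero]; exact zero_le_one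
    | succ j ih =>
      rw [hr]
      refine (norm_add_le _ _).trans ?_
      rw [norm_mul, norm_mul, Complex.norm_real, Complex.norm_real, Real.norm_of_nonneg hq,
        Real.norm_of_nonneg hp]
      nlinarith [mul_le_mul_of_nonneg_left (ha j) hp, mul_le_mul_of_nonneg_left ih hq]
  have hqe : q ≤ Real.exp (-γ) := by linarith [Real.add_one_le_exp (-γ)]
  induction j with
  | zero =>
    refine (h1 0).trans (Real.one_le_exp ?_)
    have : (0:ℝ) ≤ c := Nat.cast_nonneg c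
    push_cast; nlinarith
  | succ j ih =>
    rcases le_or_gt j c with hj | hj
    · refine (h1 _).trans (Real.one_le_exp ?_)
      have : (j:ℝ) ≤ c := by exact_mod_cast hj
      push_cast; nlinarith
    · rw [hr, hz j hj, mul_zero, zero_add, norm_mul, Complex.norm_real, Real.norm_of_nonneg hq]
      calc q * ‖h j‖ ≤ Real.exp (-γ) * Real.exp (γ - γ * ((j : ℝ) - c)) := by gcongr
        _ = _ := by rw [← Real.exp_add]; push_cast; ring_nf

theorem bs_id {h a : ℕ → ℂ} (c : ℕ) {q : ℝ} (h0 : h 0 = 0)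
    (hr : ∀ j, h (j + 1) = (1 - q : ℝ) * a j + q * h j) (w : ℂ) (J : ℕ) :
    (1 - q * cexp w) * gf h c (J + 1) w =
      (1 - q : ℝ) * cexp w * ∑ j ∈ range J, a j * cexp (((j : ℂ) - c) * w)
        - q * h J * (cexp w * cexp (((J : ℂ) - c) * w)) := by
  induction J with
  | zero => simp [gf, h0]
  | succ J ih =>
    have e : cexp ((((J + 1 : ℕ) : ℂ) - c) * w) = cexp w * cexp (((J : ℂ) - c) * w) := by
      rw [← Complex.exp_add]; push_cast; ring_nf
    have e2 : gf h c (J + 1 + 1) w =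
        gf h c (J + 1) w + h (J + 1) * cexp ((((J + 1 : ℕ) : ℂ) - c) * w) := sum_range_succ _ _
    rw [e2, mul_add, ih, sum_range_succ, e, hr]
    ring

theorem bs_sum {a : ℕ → ℂ} {c : ℕ} (hz : ∀ j, c < j → a j = 0) (γ θ : ℝ) {J : ℕ} (hJ : c + 1 ≤ J) :
    ∑ j ∈ range J, a j * cexp (((j : ℂ) - c) * ((γ / 2 : ℝ) + (-θ : ℝ) * I)) =
      ∑ i ∈ range (c + 1), (a (c - i) * (Real.exp (-(γ * i / 2)) : ℝ)) * cexp (θ * I) ^ i := by
  rw [← sum_subset (range_subset_range.2 hJ) (fun j _ hj => by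
    rw [hz j (by simpa using hj), zero_mul]), ← sum_range_reflect]
  refine sum_congr rfl fun i hi => ?_
  have hi' : i ≤ c := by simpa [Nat.lt_succ_iff] using hi
  rw [Nat.add_sub_cancel, mul_assoc, ← Complex.exp_nat_mul, Complex.ofReal_exp, ← Complex.exp_add,
    Nat.cast_sub hi']
  push_cast
  ring_nf

theorem bs_pick {a : ℕ → ℂ} {c : ℕ} {γ : ℝ} (hγ : 0 < γ) (hγ1 : γ ≤ 1) (ha : ∀ j, ‖a j‖ ≤ 1)
    (hc : ‖a c‖ = 1) : ∃ θ : ℝ, |θ| ≤ γ ∧ Real.exp (-(4 * Real.log (c + 2) / γ)) ≤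
      ‖∑ i ∈ range (c + 1), (a (c - i) * (Real.exp (-(γ * i / 2)) : ℝ)) * cexp (θ * I) ^ i‖ := by
  by_contra hcon
  push Not at hcon
  have hL := bs_log c
  have hc0 : (0:ℝ) ≤ c := Nat.cast_nonneg c
  have hx : 0 < 4 * Real.log (c + 2) / γ := by positivity
  have h := jen_zero (fun i => a (c - i) * (Real.exp (-(γ * i / 2)) : ℝ)) (c + 1) (a := γ)
    (M := c + 2) (τ := 1) (ε := Real.exp (-(4 * Real.log (c + 2) / γ))) (Nat.succ_pos c)
    (by linarith [Real.pi_gt_three]) (Real.exp_pos _)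
    (by linarith [Real.exp_le_one_iff.2 (neg_nonpos.2 hx.le)]) one_pos
    (by
      refine (sum_le_card_nsmul _ _ 1 fun i _ => ?_).trans (by simp)
      rw [norm_mul, Complex.norm_real, Real.norm_of_nonneg (Real.exp_pos _).le]
      exact mul_le_one₀ (ha _) (Real.exp_pos _).le
        (Real.exp_le_one_iff.2 (neg_nonpos.2 (by positivity))))
    (by simp [hc])
  have e : {θ : ℝ | |θ| ≤ γ ∧ ‖∑ i ∈ range (c + 1),
      (a (c - i) * (Real.exp (-(γ * i / 2)) : ℝ)) * cexp (θ * I) ^ i‖ <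
        Real.exp (-(4 * Real.log (c + 2) / γ))} = Set.Icc (-γ) γ := by
    ext θ
    exact ⟨fun h => abs_le.1 h.1, fun h => ⟨abs_le.2 h, hcon θ (abs_le.2 h)⟩⟩
  rw [e, Real.volume_real_Icc_of_le (by linarith), div_one,
    Real.log_div (by positivity) (Real.exp_pos _).ne', Real.log_exp,
    le_div_iff₀ (by linarith)] at h
  have e2 : (γ - -γ) * (Real.log (c + 2) - -(4 * Real.log (c + 2) / γ))
      = 2 * γ * Real.log (c + 2) + 8 * Real.log (c + 2) := by field_simp; ring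
  rw [e2] at h
  nlinarith [Real.pi_lt_four, mul_pos hγ (show 0 < Real.log (c + 2) by linarith)]

theorem base_low {h a : ℕ → ℂ} {c : ℕ} {q γ N : ℝ} (hq : 0 ≤ q) (hγ : 0 < γ) (hγq : γ ≤ 1 - q)
    (h0 : h 0 = 0) (hr : ∀ j, h (j + 1) = (1 - q : ℝ) * a j + q * h j) (ha : ∀ j, ‖a j‖ ≤ 1)
    (hc : ‖a c‖ = 1) (hz : ∀ j, c < j → a j = 0) (hN : 10 * Real.log (c + 2) / γ ≤ N) :
    Dec h c γ (Real.exp N) ∧ Low h c γ (Real.exp (-N)) := by
  have hγ1 : γ ≤ 1 := by linarith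
  have hL := bs_log c
  have hN' := bs_N hγ hγ1 hN
  have hd := bs_dec hq hγ hγq h0 hr ha hz
  refine ⟨fun j => (hd j).trans ?_, fun J hJ => ?_⟩
  · rw [← Real.exp_add]; exact Real.exp_le_exp.2 (by linarith)
  obtain ⟨J, rfl⟩ : ∃ K, J = K + 1 := ⟨J - 1, by omega⟩
  obtain ⟨θ, hθ, hS⟩ := bs_pick hγ hγ1 ha hc
  refine ⟨-θ, by rw [abs_neg]; linarith, ?_⟩
  have hid := bs_id c h0 hr ((γ / 2 : ℝ) + (-θ : ℝ) * I) J
  rw [bs_sum hz γ θ (by omega)] at hid
  set S := ∑ i ∈ range (c + 1), (a (c - i) * (Real.exp (-(γ * i / 2)) : ℝ)) * cexp (θ * I) ^ i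
  set w : ℂ := (γ / 2 : ℝ) + (-θ : ℝ) * I with hw
  set G := gf h c (J + 1) w
  have hre : w.re = γ / 2 := by simp [hw]
  have him : w.im = -θ := by simp [hw]
  have hn : ‖cexp w‖ = Real.exp (γ / 2) := by rw [Complex.norm_exp, hre]
  have hn2 : ‖cexp (((J : ℂ) - c) * w)‖ = Real.exp (((J : ℝ) - c) * (γ / 2)) := by
    rw [Complex.norm_exp]; simp [hre]
  have hqe : q ≤ Real.exp (-γ) := by linarith [Real.add_one_le_exp (-γ)]
  have e3 : Real.exp γ ≤ 3 :=
    (Real.exp_le_exp.2 hγ1).trans (by linarith [Real.exp_one_lt_d9])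
  have b1 : ‖(1 - q * cexp w) * G‖ ≤ 3 * ‖G‖ := by
    rw [norm_mul]
    refine mul_le_mul_of_nonneg_right ((norm_sub_le _ _).trans ?_) (norm_nonneg _)
    rw [norm_one, norm_mul, hn, Complex.norm_real, Real.norm_of_nonneg hq]
    have : q * Real.exp (γ / 2) ≤ Real.exp (-γ) * Real.exp (γ / 2) := by gcongr
    rw [← Real.exp_add] at this
    linarith [Real.exp_le_one_iff.2 (show -γ + γ / 2 ≤ 0 by linarith)]
  have b2 : ‖q * h J * (cexp w * cexp (((J : ℂ) - c) * w))‖ ≤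
      3 * Real.exp (-(γ * (((J + 1 : ℕ) : ℝ) - c) / 2)) := by
    rw [norm_mul, norm_mul, norm_mul, hn, hn2, Complex.norm_real, Real.norm_of_nonneg hq]
    calc q * ‖h J‖ * (Real.exp (γ / 2) * Real.exp (((J : ℝ) - c) * (γ / 2)))
        ≤ Real.exp (-γ) * Real.exp (γ - γ * ((J : ℝ) - c)) *
          (Real.exp (γ / 2) * Real.exp (((J : ℝ) - c) * (γ / 2))) := by
          gcongr; exact hd J
      _ = Real.exp γ * Real.exp (-(γ * (((J + 1 : ℕ) : ℝ) - c) / 2)) := by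
          simp only [← Real.exp_add]; push_cast; ring_nf
      _ ≤ _ := by gcongr
  have b3 : γ * Real.exp (-(4 * Real.log (c + 2) / γ)) ≤ ‖(1 - q : ℝ) * cexp w * S‖ := by
    rw [norm_mul, norm_mul, hn, Complex.norm_real, Real.norm_of_nonneg (by linarith)]
    refine mul_le_mul ?_ hS (Real.exp_pos _).le (mul_nonneg (by linarith) (Real.exp_pos _).le)
    nlinarith [Real.one_le_exp (show 0 ≤ γ / 2 by linarith)]
  have b4 : ‖(1 - q : ℝ) * cexp w * S‖ ≤ ‖(1 - q * cexp w) * G‖ +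
      ‖q * h J * (cexp w * cexp (((J : ℂ) - c) * w))‖ := by
    rw [hid]
    exact norm_le_norm_sub_add _ _
  have b5 : 3 * Real.exp (-N) ≤ γ * Real.exp (-(4 * Real.log (c + 2) / γ)) := by
    have t1 : Real.exp (-N) * Real.exp (6 * Real.log (c + 2) / γ) ≤
        Real.exp (-(4 * Real.log (c + 2) / γ)) := by
      rw [← Real.exp_add]
      refine Real.exp_le_exp.2 ?_
      have : 10 * Real.log (c + 2) / γ = 6 * Real.log (c + 2) / γ + 4 * Real.log (c + 2) / γ := by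
        ring
      linarith
    have t2 : 3 ≤ γ * Real.exp (6 * Real.log (c + 2) / γ) := by
      have t3 := Real.add_one_le_exp (6 * Real.log (c + 2) / γ)
      have t4 : γ * (6 * Real.log (c + 2) / γ) = 6 * Real.log (c + 2) := by field_simp
      nlinarith
    nlinarith [Real.exp_pos (-N)]
  linarith

theorem base {X Y : ℕ → Bool} {c : ℕ} {q γ N : ℝ} (hq : 0 ≤ q) (hγ : 0 < γ) (hγq : γ ≤ 1 - q)
    (hc : X c ≠ Y c) (hz : ∀ j, c < j → X j = Y j) (hN : 10 * Real.log (c + 2) / γ ≤ N) :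
    Inv X Y q γ N := by
  let T : List Bool → ℂ := fun w => if w.head? = some true then 1 else 0
  have hT : ∀ (b : Bool) (w : List Bool), Ex q T (b :: w) =
      (1 - q : ℝ) * (if b = true then 1 else 0) + q * Ex q T w := by
    intro b w
    have : (fun u => T (b :: u)) = fun _ => (if b = true then 1 else 0 : ℂ) := by
      funext u; simp [T]
    rw [Ex, this, Ex_const]
  have h0 : Ex q T [] = 0 := by simp [Ex, T]
  have key := base_low (h := fun j => Ex q T (suf X j) - Ex q T (suf Y j))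
    (a := fun j => (if X j = true then 1 else 0) - (if Y j = true then 1 else 0)) (c := c)
    hq hγ hγq (by simp [suf]) (fun j => by simp only [suf, hT]; ring)
    (fun j => by cases X j <;> cases Y j <;> simp)
    (by revert hc; cases X c <;> cases Y c <;> simp) (fun j hj => by rw [hz j hj, sub_self]) hN
  refine ⟨fun j => Ex q T (suf X j), fun j => Ex q T (suf Y j), c,
    ⟨Ex q T, ⟨T, fun u => ?_, fun _ => rfl⟩, h0, fun _ => rfl, fun _ => rfl⟩, ?_, key.1, key.2⟩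
  · simp only [T]; split_ifs <;> simp
  · have h1 := bs_N hγ (by linarith) hN
    have hL := bs_log c
    have h2 : Real.exp (Real.log (c + 2)) ≤ Real.exp N := Real.exp_le_exp.2 (by linarith)
    rw [Real.exp_log (by positivity)] at h2
    linarith

end Vale.Agent.P321U
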