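import Mathlib

/-! An approximate character on most of an interval, with slack, is close to one. -/

open Complex MeasureTheory Set

namespace Vale.Agent.P321U

theorem chr_pick {B : Set ℝ} {T : ℝ} (hT : 0 < T) (hf : volume B ≠ ⊤) (hB : volume.real B ≤ T / 4)
    (l a b c : ℝ) : ∃ v, l ≤ v ∧ v ≤ l + T ∧ v + a ∉ B ∧ v + b ∉ B ∧ v + c ∉ B := by
  by_contra hn
  have h1 : Icc l (l + T) ⊆ ((fun v => v + a) ⁻¹' B ∪ (fun v => v + b) ⁻¹' B) ∪
      (fun v => v + c) ⁻¹' B := by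
    intro v hv
    by_contra h
    simp only [mem_union, mem_preimage, not_or] at h
    exact hn ⟨v, hv.1, hv.2, h.1.1, h.1.2, h.2⟩
  have h2 := (measure_mono (μ := volume) h1).trans ((measure_union_le _ _).trans
    (add_le_add (measure_union_le _ _) le_rfl))
  simp only [measure_preimage_add_right, Real.volume_Icc, add_sub_cancel_left] at h2
  have h3 := ENNReal.toReal_mono (by simp [hf]) h2
  rw [ENNReal.toReal_ofReal hT.le, ENNReal.toReal_add (by simp [hf]) hf,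
    ENNReal.toReal_add hf hf] at h3
  rw [Measure.real] at hB
  linarith

theorem chr_unit (ρ : ℝ → ℂ) {B : Set ℝ} {T δ e : ℝ} (hT : 0 < T) (hδ : 0 < δ)
    (hf : volume B ≠ ⊤) (hB : volume.real B ≤ T / 4)
    (h1 : ∀ u, |u| ≤ 2 * T → u ∉ B → ‖ρ u‖ = 1)
    (h3 : ∀ u v w, |u| ≤ 2 * T → u ∉ B → |v| ≤ 2 * T → v ∉ B → |w| ≤ 2 * T → w ∉ B →
      u + v ≤ w → w ≤ u + v + δ → ‖ρ u * ρ v * (starRingEnd ℂ) (ρ w) - 1‖ ≤ e) :
    ∃ u, |u| ≤ 2 * T ∧ u ∉ B ∧ ‖ρ u - 1‖ ≤ (2 * (T / δ) + 3) * e := by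
  have key : ∀ k : ℕ, ∀ v t : ℝ, -T ≤ v → v + t ≤ T → 0 ≤ t → t ≤ T → t ≤ k * δ → v ∉ B →
      v + t ∉ B → ‖ρ (v + t) - ρ v‖ ≤ 2 * k * e := by
    intro k
    induction k with
    | zero =>
      intro v t _ _ a3 _ a5 _ _
      have : t = 0 := le_antisymm (by simpa using a5) a3
      simp [this]
    | succ k ih =>
      intro v t a1 a2 a3 a4 a5 a6 a7
      obtain ⟨v', b1, b2, b3, b4, b5⟩ := chr_pick hT hf hB (-T) 0 (max (t - δ) 0) (v + t)
      rw [add_zero] at b3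
      have c0 : 0 ≤ max (t - δ) 0 := le_max_right _ _
      have c1 : max (t - δ) 0 ≤ t := max_le (by linarith) a3
      have c2 : t - δ ≤ max (t - δ) 0 := le_max_left _ _
      have c3 : max (t - δ) 0 ≤ k * δ := max_le (by push_cast at a5; linarith) (by positivity)
      generalize max (t - δ) 0 = t' at *
      have d0 := ih v' t' b1 (by linarith) c0 (by linarith) c3 b3 b4
      have n1 : |v + t| ≤ 2 * T := abs_le.2 ⟨by linarith, by linarith⟩
      have n2 : |v'| ≤ 2 * T := abs_le.2 ⟨by linarith, by linarith⟩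
      have n3 : |v' + (v + t)| ≤ 2 * T := abs_le.2 ⟨by linarith, by linarith⟩
      have n4 : |v| ≤ 2 * T := abs_le.2 ⟨by linarith, by linarith⟩
      have n5 : |v' + t'| ≤ 2 * T := abs_le.2 ⟨by linarith, by linarith⟩
      have d1 := h3 _ _ _ n1 a7 n2 b3 n3 b5 (by linarith) (by linarith)
      have d2 := h3 _ _ _ n4 a6 n5 b4 n3 b5 (by linarith) (by linarith)
      have e1 : ‖ρ (v + t) - ρ v‖ =
          ‖(ρ (v + t) - ρ v) * ρ v' * (starRingEnd ℂ) (ρ (v' + (v + t)))‖ := by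
        rw [norm_mul, norm_mul, Complex.norm_conj, h1 _ n2 b3, h1 _ n3 b5, mul_one, mul_one]
      have e2 : ‖ρ v * (ρ (v' + t') - ρ v') * (starRingEnd ℂ) (ρ (v' + (v + t)))‖ =
          ‖ρ (v' + t') - ρ v'‖ := by
        rw [norm_mul, norm_mul, Complex.norm_conj, h1 _ n4 a6, h1 _ n3 b5, mul_one, one_mul]
      have e3 : (ρ (v + t) - ρ v) * ρ v' * (starRingEnd ℂ) (ρ (v' + (v + t))) =
          (ρ (v + t) * ρ v' * (starRingEnd ℂ) (ρ (v' + (v + t))) - 1) -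
          (ρ v * ρ (v' + t') * (starRingEnd ℂ) (ρ (v' + (v + t))) - 1) +
          ρ v * (ρ (v' + t') - ρ v') * (starRingEnd ℂ) (ρ (v' + (v + t))) := by ring
      rw [e1, e3]
      refine (norm_add_le _ _).trans ?_
      rw [e2]
      have := norm_sub_le (ρ (v + t) * ρ v' * (starRingEnd ℂ) (ρ (v' + (v + t))) - 1)
        (ρ v * ρ (v' + t') * (starRingEnd ℂ) (ρ (v' + (v + t))) - 1)
      push_cast
      linarith
  obtain ⟨u, a1, a2, a3, -⟩ := chr_pick hT hf hB 0 0 0 0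
  obtain ⟨v, b1, b2, b3, b4, -⟩ := chr_pick hT hf hB (-T) 0 u 0
  rw [add_zero] at a3 b3
  have n1 : |u| ≤ 2 * T := abs_le.2 ⟨by linarith, by linarith⟩
  have n2 : |v| ≤ 2 * T := abs_le.2 ⟨by linarith, by linarith⟩
  have n3 : |v + u| ≤ 2 * T := abs_le.2 ⟨by linarith, by linarith⟩
  have d1 := h3 _ _ _ n1 a3 n2 b3 n3 b4 (by linarith) (by linarith)
  have he : 0 ≤ e := (norm_nonneg _).trans d1
  have c1 : T ≤ ⌈T / δ⌉₊ * δ := (div_le_iff₀ hδ).1 (Nat.le_ceil _)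
  have c2 : (⌈T / δ⌉₊ : ℝ) ≤ T / δ + 1 := (Nat.ceil_lt_add_one (by positivity)).le
  have d2 := key ⌈T / δ⌉₊ v u b1 (by linarith) a1 (by linarith) (by linarith) b3 b4
  refine ⟨u, n1, a3, ?_⟩
  have e0 : ρ v * (starRingEnd ℂ) (ρ v) = 1 := by
    rw [Complex.mul_conj, Complex.normSq_eq_norm_sq, h1 _ n2 b3]; simp
  have e3 : ρ u - 1 = (ρ u * ρ v * (starRingEnd ℂ) (ρ (v + u)) - 1) -
      ρ u * ρ v * (starRingEnd ℂ) (ρ (v + u) - ρ v) := by
    rw [map_sub]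
    linear_combination (-ρ u) * e0
  rw [e3]
  refine (norm_sub_le _ _).trans ?_
  rw [norm_mul, norm_mul, Complex.norm_conj, h1 _ n1 a3, h1 _ n2 b3, one_mul, one_mul]
  nlinarith

theorem chr_norm {z : ℂ} {e : ℝ} (hz : z ≠ 0) (h : ‖z - 1‖ ≤ e) : ‖z / ‖z‖ - 1‖ ≤ 2 * e := by
  have h0 : (0 : ℝ) < ‖z‖ := norm_pos_iff.2 hz
  have h1 : z / ‖z‖ - 1 = (z - 1) + z / ‖z‖ * ((1 - ‖z‖ : ℝ) : ℂ) := by
    have : ((‖z‖ : ℝ) : ℂ) ≠ 0 := by exact_mod_cast h0.ne'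
    push_cast
    field_simp
    ring
  have h2 : |1 - ‖z‖| ≤ e := by
    have := abs_norm_sub_norm_le 1 z
    rw [norm_one, norm_sub_rev] at this
    linarith
  rw [h1]
  refine (norm_add_le _ _).trans ?_
  rw [norm_mul, norm_div, Complex.norm_real, Complex.norm_real, norm_norm, div_self h0.ne', one_mul,
    Real.norm_eq_abs]
  linarith

/-- The character lemma. -/
theorem chr (X Y : ℝ → ℂ) {T M ε δ η : ℝ} (hT : 0 < T) (hδ : 0 < δ) (hε : 0 < ε) (hε1 : ε ≤ 1)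
    (hM : 1 ≤ M) (hY : ∀ u, |u| ≤ 2 * T → ‖Y u‖ ≤ M)
    (hB : volume.real {u : ℝ | |u| ≤ 2 * T ∧ ‖X u - Y u‖ < ε} ≤ T / 4)
    (h2 : ∀ u, |u| ≤ 2 * T → |‖X u‖ ^ 2 - ‖Y u‖ ^ 2| ≤ η)
    (h3 : ∀ u v w, |u| ≤ 2 * T → |v| ≤ 2 * T → |w| ≤ 2 * T → u + v ≤ w → w ≤ u + v + δ →
      ‖X u * X v * (starRingEnd ℂ) (X w) - Y u * Y v * (starRingEnd ℂ) (Y w)‖ ≤ η) :
    ε ^ 4 * δ ≤ 448 * M * (T + δ) * η := by
  have hη : 0 ≤ η := (abs_nonneg _).trans (h2 0 (by simp; positivity))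
  by_cases hs : ε ^ 2 ≤ 8 * η
  · have a1 : ε ^ 4 ≤ 8 * η := by nlinarith [sq_nonneg ε, pow_le_one₀ hε.le hε1 (n := 2)]
    have a2 : η * δ ≤ M * (T + δ) * η := by
      rw [mul_comm]
      exact mul_le_mul_of_nonneg_right (by nlinarith) hη
    nlinarith [mul_nonneg hη hδ.le]
  rw [not_le] at hs
  set B := {u : ℝ | |u| ≤ 2 * T ∧ ‖X u - Y u‖ < ε} with hBd
  have hf : volume B ≠ ⊤ := ne_top_of_le_ne_top (measure_Icc_lt_top (a := -(2 * T)) (b := 2 * T)).ne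
    (measure_mono fun u hu => abs_le.1 hu.1)
  have g0 : ∀ u, |u| ≤ 2 * T → u ∉ B → ε ≤ ‖X u - Y u‖ := fun u hu hb =>
    not_lt.1 fun h => hb ⟨hu, h⟩
  have g1 : ∀ u, |u| ≤ 2 * T → u ∉ B → ε / 4 ≤ ‖X u‖ ∧ ε / 4 ≤ ‖Y u‖ := fun u hu hb => by
    have a1 := (g0 u hu hb).trans (norm_sub_le _ _)
    have a2 := abs_le.1 (h2 u hu)
    have a3 := norm_nonneg (X u)
    have a4 := norm_nonneg (Y u)
    constructor <;> by_contra h <;> rw [not_le] at h <;> nlinarith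
  have g2 : ∀ u, |u| ≤ 2 * T → u ∉ B → X u ≠ 0 ∧ Y u ≠ 0 := fun u hu hb =>
    ⟨norm_pos_iff.1 (lt_of_lt_of_le (by positivity) (g1 u hu hb).1),
      norm_pos_iff.1 (lt_of_lt_of_le (by positivity) (g1 u hu hb).2)⟩
  obtain ⟨u, hu, hb, hρ⟩ := chr_unit (fun u => X u / Y u / ‖X u / Y u‖) (e := 2 * (64 * η / ε ^ 3))
    hT hδ hf hB
    (fun u hu hb => by
      have : X u / Y u ≠ 0 := div_ne_zero (g2 u hu hb).1 (g2 u hu hb).2
      rw [norm_div, Complex.norm_real, norm_norm, div_self (norm_ne_zero_iff.2 this)])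
    fun u v w hu bu hv bv hw bw l1 l2 => by
      have a1 := g2 u hu bu
      have a2 := g2 v hv bv
      have a3 := g2 w hw bw
      have a4 : (starRingEnd ℂ) (X w) ≠ 0 := (map_ne_zero _).2 a3.1
      have a5 : (starRingEnd ℂ) (Y w) ≠ 0 := (map_ne_zero _).2 a3.2
      have a6 := chr_norm (z := X u / Y u * (X v / Y v) * (starRingEnd ℂ) (X w / Y w))
        (e := 64 * η / ε ^ 3) (mul_ne_zero (mul_ne_zero (div_ne_zero a1.1 a1.2)
          (div_ne_zero a2.1 a2.2)) ((map_ne_zero _).2 (div_ne_zero a3.1 a3.2))) (by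
          have b1 : X u / Y u * (X v / Y v) * (starRingEnd ℂ) (X w / Y w) - 1 =
              (X u * X v * (starRingEnd ℂ) (X w) - Y u * Y v * (starRingEnd ℂ) (Y w)) /
                (Y u * Y v * (starRingEnd ℂ) (Y w)) := by
            have := a1.2
            have := a2.2
            rw [map_div₀]
            field_simp
          have b2 : ε / 4 * (ε / 4) * (ε / 4) ≤ ‖Y u‖ * ‖Y v‖ * ‖Y w‖ :=
            mul_le_mul (mul_le_mul (g1 u hu bu).2 (g1 v hv bv).2 (by positivity) (norm_nonneg _))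
              (g1 w hw bw).2 (by positivity) (by positivity)
          rw [b1, norm_div, norm_mul, norm_mul, Complex.norm_conj]
          refine (div_le_div₀ hη (h3 u v w hu hv hw l1 l2) (by positivity) b2).trans (le_of_eq ?_)
          field_simp
          norm_num)
      refine le_trans (le_of_eq ?_) a6
      congr 2
      rw [norm_mul, norm_mul, Complex.norm_conj, map_div₀ _ (X w / Y w), Complex.conj_ofReal]
      push_cast
      ring
  obtain ⟨a1, a2⟩ := g2 u hu hb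
  have b0 : 0 < ‖Y u‖ := norm_pos_iff.2 a2
  have b1 : |‖X u / Y u‖ - 1| ≤ 64 * η / ε ^ 3 := by
    have c1 : ‖X u / Y u‖ - 1 = (‖X u‖ ^ 2 - ‖Y u‖ ^ 2) / (‖Y u‖ * (‖X u‖ + ‖Y u‖)) := by
      rw [norm_div]
      field_simp
      ring
    have c2 : ε ^ 3 / 64 ≤ ‖Y u‖ * (‖X u‖ + ‖Y u‖) := by
      have := mul_le_mul (g1 u hu hb).2 (add_le_add (g1 u hu hb).1 (g1 u hu hb).2)
        (by positivity) b0.le
      nlinarith [mul_le_mul_of_nonneg_left hε1 (sq_nonneg ε), sq_nonneg ε]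
    rw [c1, abs_div, abs_of_pos (a := ‖Y u‖ * (‖X u‖ + ‖Y u‖)) (by positivity)]
    refine (div_le_div₀ hη (h2 u hu) (by positivity) c2).trans (le_of_eq ?_)
    field_simp
  have b2 : X u / Y u ≠ 0 := div_ne_zero a1 a2
  have b3 : X u - Y u = Y u * ((X u / Y u / ‖X u / Y u‖ - 1) +
      X u / Y u / ‖X u / Y u‖ * ((‖X u / Y u‖ - 1 : ℝ) : ℂ)) := by
    have : ((‖X u / Y u‖ : ℝ) : ℂ) ≠ 0 := by exact_mod_cast norm_ne_zero_iff.2 b2
    rw [Complex.ofReal_sub, Complex.ofReal_one]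
    generalize ((‖X u / Y u‖ : ℝ) : ℂ) = c at *
    field_simp
    ring
  have b4 : ‖X u - Y u‖ ≤ M * ((2 * (T / δ) + 3) * (2 * (64 * η / ε ^ 3)) + 64 * η / ε ^ 3) := by
    rw [b3, norm_mul]
    refine mul_le_mul (hY u hu) ((norm_add_le _ _).trans (add_le_add hρ ?_)) (norm_nonneg _)
      (by linarith)
    rw [norm_mul, norm_div, Complex.norm_real, Complex.norm_real, norm_norm,
      div_self (norm_ne_zero_iff.2 b2), one_mul, Real.norm_eq_abs]
    exact b1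
  have b5 := (g0 u hu hb).trans b4
  have b6 : M * ((2 * (T / δ) + 3) * (2 * (64 * η / ε ^ 3)) + 64 * η / ε ^ 3) =
      M * (256 * T + 448 * δ) * η / (ε ^ 3 * δ) := by
    field_simp
    ring
  rw [b6, le_div_iff₀ (by positivity)] at b5
  have b7 : 0 ≤ M * T * η := by positivity
  nlinarith

end Vale.Agent.P321U
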