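import Vale.Agent.P321U.A

/-! Definitions for the quasi-polynomial upper bound. -/

open Finset Complex

namespace Vale.Agent.P321U

/-- The word `X (j-1), ..., X 0`. -/
def suf (X : ℕ → Bool) : ℕ → List Bool
  | 0 => []
  | j + 1 => X j :: suf X j

/-- `f, g` are the values of one realisable function on the words `suf X j`, `suf Y j`. -/
def Pr (X Y : ℕ → Bool) (q C : ℝ) (f g : ℕ → ℂ) : Prop :=
  ∃ φ : List Bool → ℂ, Rl q C φ ∧ φ [] = 0 ∧ (∀ j, f j = φ (suf X j)) ∧ ∀ j, g j = φ (suf Y j)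

/-- Truncated transform with centre `c`. -/
noncomputable def gf (h : ℕ → ℂ) (c J : ℕ) (w : ℂ) : ℂ :=
  ∑ j ∈ range J, h j * cexp (((j : ℂ) - c) * w)

/-- Truncated majorant of `gf`. -/
noncomputable def l1 (h : ℕ → ℂ) (c J : ℕ) (y : ℝ) : ℝ :=
  ∑ j ∈ range J, ‖h j‖ * Real.exp (((j : ℝ) - c) * y)

/-- One-sided exponential kernel. -/
noncomputable def kS (ζ : ℂ) (f : ℕ → ℂ) (j : ℕ) : ℂ := ∑ i ∈ range j, ζ ^ (j - i) * f i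

/-- Exponential decay beyond `c`. -/
def Dec (h : ℕ → ℂ) (c : ℕ) (γ K : ℝ) : Prop :=
  ∀ j : ℕ, ‖h j‖ ≤ K * Real.exp (-(γ * ((j : ℝ) - c)))

/-- Signal at low frequency. -/
def Low (h : ℕ → ℂ) (c : ℕ) (γ τ : ℝ) : Prop :=
  ∀ J : ℕ, c + 2 ≤ J → ∃ u : ℝ, |u| ≤ 500000 * γ ∧
    τ ≤ ‖gf h c J ((γ / 2 : ℝ) + u * I)‖ + Real.exp (-(γ * ((J : ℝ) - c) / 2))

/-- The invariant of the recursion. -/
def Inv (X Y : ℕ → Bool) (q γ N : ℝ) : Prop :=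
  ∃ (f g : ℕ → ℂ) (c : ℕ), Pr X Y q 1 f g ∧ (c : ℝ) ≤ Real.exp N ∧
    Dec (fun j => f j - g j) c γ (Real.exp N) ∧ Low (fun j => f j - g j) c γ (Real.exp (-N))

/-- A gap on a long word. -/
def Sig (X Y : ℕ → Bool) (q γ N : ℝ) : Prop :=
  ∃ (f g : ℕ → ℂ) (j : ℕ), Pr X Y q 1 f g ∧ 1 ≤ γ * j ∧ Real.exp (-N) ≤ ‖f j - g j‖

/-- Expansion of a pair of sequences into realisable pairs. -/
def Xp (X Y : ℕ → Bool) (q : ℝ) (c d : ℕ) (γ E C K ξ : ℝ) (P Q : ℕ → ℂ) : Prop :=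
  ∃ (ι : Type) (S : Finset ι) (e : ι → ℂ) (a : ι → ℝ) (φ ψ : ι → ℕ → ℂ),
    ∑ k ∈ S, ‖e k‖ ≤ E ∧
    (∀ k ∈ S, 0 ≤ a k ∧ Pr X Y q C (φ k) (ψ k) ∧ Dec (fun j => φ k j - ψ k j) c γ K) ∧
    ∀ s, s ≤ d → P s = ∑ k ∈ S, e k * cexp (-(a k : ℂ) + ξ * I) ^ s * φ k (d - s) ∧
      Q s = ∑ k ∈ S, e k * cexp (-(a k : ℂ) + ξ * I) ^ s * ψ k (d - s)

/-- The window. -/
noncomputable def win (e : ℕ → ℝ) (m : ℕ) (β : ℝ) (d i : ℕ) : ℝ :=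
  ∑ k ∈ range (2 * m + 1), e k * Real.exp (-(β * ((d : ℝ) - i))) ^ k

/-- The windowed transform started at `d - s`. -/
noncomputable def Fs (e : ℕ → ℝ) (m : ℕ) (β : ℝ) (d : ℕ) (g : ℝ) (f : ℕ → ℂ) (u : ℝ) (s : ℕ) : ℂ :=
  gf (fun i => (win e m β d i : ℂ) * f i) d (d - s) ((g : ℂ) - u * I)

/-- Time-domain form of the low-frequency signal. -/
noncomputable def tst (ρ : ℕ → ℝ) (L : ℕ) (a ξ : ℝ) (h : ℕ → ℂ) (d : ℕ) : ℂ :=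
  ∑ s ∈ range (L + 1), (ρ s : ℂ) * cexp (-(a : ℂ) + ξ * I) ^ s * h (d - s)

end Vale.Agent.P321U
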