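import Vale.Agent.P321U.Df

open Finset Complex MeasureTheory

namespace Vale.Agent.P321U

theorem norm_gf_le (h : ℕ → ℂ) (c J : ℕ) (w : ℂ) : ‖gf h c J w‖ ≤ l1 h c J w.re := by
  refine (norm_sum_le _ _).trans (sum_le_sum fun j _ => ?_)
  rw [norm_mul, Complex.norm_exp]
  simp

theorem gf_diff (h : ℕ → ℂ) (c J : ℕ) : Differentiable ℂ (gf h c J) := by
  unfold gf
  fun_prop

theorem gf_shift (h : ℕ → ℂ) (c d J : ℕ) (w : ℂ) :
    gf h d J w = cexp (((c : ℂ) - d) * w) * gf h c J w := by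
  unfold gf
  rw [mul_sum]
  refine sum_congr rfl fun j _ => ?_
  rw [mul_left_comm, ← Complex.exp_add]
  congr 2
  ring

theorem lo_step {y : ℝ} (hy : 0 < y) {S : ℝ} (h : S ≤ 1 / y) : Real.exp (-y) * (S + 1) ≤ 1 / y := by
  have h1 := Real.add_one_le_exp y
  have h2 := Real.exp_pos y
  rw [Real.exp_neg, ← div_eq_inv_mul, div_le_iff₀ h2]
  have h3 : 1 / y * (y + 1) = 1 / y + 1 := by field_simp; ring
  have h4 := mul_le_mul_of_nonneg_left h1 (one_div_pos.2 hy).le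
  linarith

theorem geo_le {y : ℝ} (hy : 0 < y) (J : ℕ) :
    ∑ i ∈ range J, Real.exp (((i : ℝ) - J) * y) ≤ 1 / y := by
  induction J with
  | zero => simpa using hy.le
  | succ J ih =>
    refine le_trans (le_of_eq ?_) (lo_step hy ih)
    rw [sum_range_succ, mul_add, mul_sum, mul_one]
    congr 1
    · refine sum_congr rfl fun i _ => ?_
      rw [← Real.exp_add]; congr 1; push_cast; ring
    · congr 1; push_cast; ring

theorem lo_geo {x : ℝ} (hx : 0 < x) (n : ℕ) :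
    ∑ t ∈ range n, Real.exp (-(x * t)) ≤ 1 + 1 / x ∧
      ∑ t ∈ range n, Real.exp (-(x * (t + 1))) ≤ 1 / x := by
  have h2 : ∀ n : ℕ, ∑ t ∈ range n, Real.exp (-(x * (t + 1))) ≤ 1 / x := fun n => by
    refine le_trans (le_of_eq ?_) (geo_le hx n)
    rw [← sum_range_reflect]
    refine sum_congr rfl fun i hi => ?_
    have := mem_range.1 hi
    rw [Nat.cast_sub (by omega), Nat.cast_sub (by omega)]
    congr 1; push_cast; ring
  refine ⟨?_, h2 n⟩
  cases n with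
  | zero => simp; positivity
  | succ n =>
    rw [sum_range_succ']
    have := h2 n
    push_cast
    rw [mul_zero, neg_zero, Real.exp_zero]
    linarith

theorem lo_K {h : ℕ → ℂ} {c : ℕ} {γ K : ℝ} (hd : Dec h c γ K) : 0 ≤ K :=
  nonneg_of_mul_nonneg_left ((norm_nonneg _).trans (hd 0)) (Real.exp_pos _)

theorem lo_term {h : ℕ → ℂ} {c : ℕ} {γ K : ℝ} (hd : Dec h c γ K) (y : ℝ) (j : ℕ) :
    ‖h j‖ * Real.exp (((j : ℝ) - c) * y) ≤ K * Real.exp (-((γ - y) * ((j : ℝ) - c))) := by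
  refine (mul_le_mul_of_nonneg_right (hd j) (Real.exp_pos _).le).trans (le_of_eq ?_)
  rw [mul_assoc, ← Real.exp_add]
  congr 2
  ring

theorem lo_split {h : ℕ → ℂ} {c : ℕ} {γ K y : ℝ} (h2 : ∀ j, ‖h j‖ ≤ 2) (hd : Dec h c γ K)
    (hyγ : y < γ) (J : ℕ) :
    l1 h c J y ≤ 2 * ∑ j ∈ range (c + 1), Real.exp (((j : ℝ) - c) * y) + K / (γ - y) := by
  have hs : range J ⊆ range (c + 1) ∪ Ico (c + 1) J := fun j hj => by
    simp only [mem_union, mem_range, mem_Ico] at *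
    omega
  have hdis : Disjoint (range (c + 1)) (Ico (c + 1) J) := disjoint_left.2 fun j h1 h2 => by
    simp only [mem_range, mem_Ico] at *
    omega
  refine (sum_le_sum_of_subset_of_nonneg hs fun j _ _ => by positivity).trans ?_
  rw [sum_union hdis, mul_sum]
  refine add_le_add (sum_le_sum fun j _ => mul_le_mul_of_nonneg_right (h2 j) (Real.exp_pos _).le)
    ((sum_le_sum fun j _ => lo_term hd y j).trans ?_)
  rw [← mul_sum, sum_Ico_eq_sum_range, div_eq_mul_one_div]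
  refine mul_le_mul_of_nonneg_left (le_trans (le_of_eq (sum_congr rfl fun t _ => ?_))
    (lo_geo (sub_pos.2 hyγ) _).2) (lo_K hd)
  congr 1; push_cast; ring

theorem l1_le {h : ℕ → ℂ} {c : ℕ} {γ K y : ℝ} (h2 : ∀ j, ‖h j‖ ≤ 2) (hd : Dec h c γ K)
    (hy : 0 ≤ y) (hyγ : y < γ) (J : ℕ) : l1 h c J y ≤ 2 * (c + 1) + K / (γ - y) := by
  refine (lo_split h2 hd hyγ J).trans ?_
  have h1 := sum_le_card_nsmul (range (c + 1)) (fun j => Real.exp (((j : ℝ) - c) * y)) 1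
    fun j hj => Real.exp_le_one_iff.2 (mul_nonpos_of_nonpos_of_nonneg
      (sub_nonpos.2 (by exact_mod_cast Nat.lt_succ_iff.1 (mem_range.1 hj))) hy)
  rw [card_range, nsmul_eq_mul, mul_one] at h1
  push_cast at h1
  linarith

theorem l1_le' {h : ℕ → ℂ} {c : ℕ} {γ K y : ℝ} (h2 : ∀ j, ‖h j‖ ≤ 2) (hd : Dec h c γ K)
    (hy : 0 < y) (hyγ : y < γ) (J : ℕ) : l1 h c J y ≤ 2 * (1 + 1 / y) + K / (γ - y) := by
  refine (lo_split h2 hd hyγ J).trans ?_
  rw [sum_range_succ, sub_self, zero_mul, Real.exp_zero]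
  linarith [geo_le hy c]

theorem l1_tail {h : ℕ → ℂ} {c : ℕ} {γ K y : ℝ} (hd : Dec h c γ K) (hyγ : y < γ) (Δ J : ℕ) :
    ∑ j ∈ Ico (c + Δ) J, ‖h j‖ * Real.exp (((j : ℝ) - c) * y) ≤
      K * Real.exp (-((γ - y) * Δ)) * (1 + 1 / (γ - y)) := by
  refine (sum_le_sum fun j _ => lo_term hd y j).trans ?_
  rw [← mul_sum, sum_Ico_eq_sum_range, mul_assoc]
  refine mul_le_mul_of_nonneg_left (le_trans (le_of_eq ?_) (mul_le_mul_of_nonneg_left
    (lo_geo (sub_pos.2 hyγ) (J - (c + Δ))).1 (Real.exp_pos _).le)) (lo_K hd)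
  rw [mul_sum]
  refine sum_congr rfl fun t _ => ?_
  rw [← Real.exp_add]
  congr 1; push_cast; ring

theorem l1_exp {h : ℕ → ℂ} {c : ℕ} {γ N y : ℝ} (h2 : ∀ j, ‖h j‖ ≤ 2)
    (hd : Dec h c γ (Real.exp N)) (hN : 1 ≤ N) (hc : (c : ℝ) ≤ Real.exp N)
    (hγ : Real.exp (-N) ≤ γ) (hy : 0 ≤ y) (hy' : y ≤ 3 * γ / 4) (J : ℕ) :
    l1 h c J y ≤ Real.exp (5 * N) := by
  have h0 := Real.exp_pos (-N)
  have hE : 2 ≤ Real.exp N := by linarith [Real.add_one_le_exp N]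
  have hm : Real.exp (-N) * Real.exp N = 1 := by rw [← Real.exp_add]; simp
  refine (l1_le h2 hd hy (by linarith) J).trans ?_
  have h3 : Real.exp N / (γ - y) ≤ 4 * Real.exp N ^ 2 := by
    rw [div_le_iff₀ (by linarith)]
    have : Real.exp (-N) / 4 ≤ γ - y := by linarith
    nlinarith [mul_le_mul_of_nonneg_left this (by positivity : 0 ≤ 4 * Real.exp N ^ 2)]
  have h5 : Real.exp (5 * N) = Real.exp N ^ 5 := by rw [← Real.exp_nat_mul]; norm_num
  rw [h5]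
  generalize Real.exp N = E at *
  have h6 : 8 ≤ E ^ 3 := by nlinarith [mul_le_mul hE hE (by norm_num) (by linarith)]
  nlinarith [mul_le_mul_of_nonneg_left h6 (sq_nonneg E)]

theorem dec_kS {h : ℕ → ℂ} {c : ℕ} {y K : ℝ} {ζ : ℂ} (hζ : ‖ζ‖ ≤ Real.exp (-y))
    (hK : ∀ J, l1 h c J y ≤ K) : Dec (kS ζ h) c y K := by
  intro j
  refine (norm_sum_le _ _).trans (le_trans ?_
    (mul_le_mul_of_nonneg_right (hK j) (Real.exp_pos _).le))
  rw [l1, sum_mul]
  refine sum_le_sum fun i hi => ?_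
  rw [norm_mul, norm_pow, mul_comm, mul_assoc, ← Real.exp_add]
  refine mul_le_mul_of_nonneg_left ((pow_le_pow_left₀ (norm_nonneg _) hζ _).trans
    (le_of_eq ?_)) (norm_nonneg _)
  rw [← Real.exp_nat_mul, Nat.cast_sub (mem_range.1 hi).le]
  congr 1; ring

end Vale.Agent.P321U
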