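import Vale.Agent.P321U.Pr
import Vale.Agent.P321U.L1
import Vale.Agent.P321U.Avg

open Finset Complex MeasureTheory

namespace Vale.Agent.P321U

theorem fc_id {g β u : ℝ} (f : ℕ → ℂ) (e : ℕ → ℝ) (m : ℕ) {d s : ℕ} (hs : s ≤ d) :
    Fs e m β d g f u s = ∑ k ∈ range (2 * m + 1), (e k : ℂ) *
      cexp (-((g + k * β : ℝ) : ℂ) + u * I) ^ s *
        kS (cexp (-((g + k * β : ℝ) : ℂ) + u * I)) f (d - s) := by
  simp only [Fs, gf, win, kS, mul_sum]
  rw [sum_comm]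
  refine sum_congr rfl fun i hi => ?_
  have hi' : i < d - s := mem_range.1 hi
  push_cast
  rw [sum_mul, sum_mul]
  refine sum_congr rfl fun k _ => ?_
  have h1 : ((d - s - i : ℕ) : ℂ) = d - s - i := by
    rw [Nat.cast_sub hi'.le, Nat.cast_sub hs]
  have h2 : cexp (-((β : ℂ) * ((d : ℂ) - i))) ^ k * cexp (((i : ℂ) - d) * (g - u * I)) =
      cexp (-((g : ℂ) + k * β) + u * I) ^ s * cexp (-((g : ℂ) + k * β) + u * I) ^ (d - s - i) := by
    rw [← Complex.exp_nat_mul, ← Complex.exp_nat_mul, ← Complex.exp_nat_mul, ← Complex.exp_add,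
      ← Complex.exp_add, h1]
    congr 1
    ring
  calc _ = (e k : ℂ) * f i * (cexp (-((β : ℂ) * ((d : ℂ) - i))) ^ k *
        cexp (((i : ℂ) - d) * (g - u * I))) := by ring
    _ = _ := by rw [h2]; ring

theorem fac_xp {X Y : ℕ → Bool} {q g β u E K : ℝ} {f f' : ℕ → ℂ} {e : ℕ → ℝ} {m c d : ℕ}
    (hq : 0 ≤ q) (hP : Pr X Y q 1 f f') (hg : 0 < g) (hβ : 0 ≤ β) (ha : g + 2 * m * β ≤ 1 - q)
    (hu : u ^ 2 ≤ (1 - q) * g / 4) (he : ∑ k ∈ range (2 * m + 1), |e k| ≤ E)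
    (hK : ∀ J, l1 (fun j => f j - f' j) c J g ≤ K) :
    Xp X Y q c d g E (4 / g) K u (Fs e m β d g f u) (Fs e m β d g f' u) := by
  refine ⟨ℕ, range (2 * m + 1), fun k => (e k : ℂ), fun k => g + k * β,
    fun k => kS (cexp (-((g + k * β : ℝ) : ℂ) + u * I)) f,
    fun k => kS (cexp (-((g + k * β : ℝ) : ℂ) + u * I)) f', ?_, fun k hk => ?_,
    fun s hs => ⟨fc_id f e m hs, fc_id f' e m hs⟩⟩
  · simpa only [Complex.norm_real, Real.norm_eq_abs] using he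
  · have hk' : (k : ℝ) ≤ 2 * m := by
      have : k ≤ 2 * m := Nat.lt_succ_iff.1 (mem_range.1 hk)
      exact_mod_cast this
    have hkβ : 0 ≤ (k : ℝ) * β := by positivity
    have hkβ' : (k : ℝ) * β ≤ 2 * m * β := mul_le_mul_of_nonneg_right hk' hβ
    have hd := disc (a := g + k * β) hq hg (by linarith) (by linarith) hu
    set ζ := cexp (-((g + k * β : ℝ) : ℂ) + u * I) with hζ
    have hn : ‖ζ‖ ≤ Real.exp (-g) := by
      rw [hζ, Complex.norm_exp]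
      apply Real.exp_le_exp.2
      simp only [add_re, neg_re, ofReal_re, mul_re, I_re, mul_zero, ofReal_im, I_im, mul_one,
        sub_self, add_zero]
      linarith
    have hn1 : ‖ζ‖ ≤ 1 := hn.trans (Real.exp_le_one_iff.2 (by linarith))
    refine ⟨by positivity, (hP.kS (ζ := ζ) (by linarith)).mono ?_, ?_⟩
    · rw [mul_one, div_le_div_iff₀ (by linarith) hg]
      nlinarith
    · have h1 : (fun j => kS ζ f j - kS ζ f' j) = kS ζ fun j => f j - f' j := by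
        funext j
        simp only [kS, mul_sub, sum_sub_distrib]
      rw [h1]
      exact dec_kS hn hK

theorem fc_term {g β u ε : ℝ} {f : ℕ → ℂ} {e : ℕ → ℝ} {m d i : ℕ} (hf : ∀ j, ‖f j‖ ≤ 1)
    (hw : |win e m β d i| ≤ ε) :
    ‖(win e m β d i : ℂ) * f i * cexp (((i : ℂ) - d) * ((g : ℂ) - u * I))‖ ≤
      ε * Real.exp (((i : ℝ) - d) * g) := by
  rw [norm_mul, norm_mul, Complex.norm_exp, Complex.norm_real, Real.norm_eq_abs]
  have h1 : (((i : ℂ) - d) * ((g : ℂ) - u * I)).re = ((i : ℝ) - d) * g := by simp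
  rw [h1]
  refine mul_le_mul_of_nonneg_right ?_ (Real.exp_pos _).le
  calc _ ≤ |win e m β d i| * 1 := mul_le_mul_of_nonneg_left (hf i) (abs_nonneg _)
    _ ≤ ε := by rwa [mul_one]

theorem fc_sum {g β u ε : ℝ} {f : ℕ → ℂ} {e : ℕ → ℝ} {m d : ℕ} {S : Finset ℕ}
    (hf : ∀ j, ‖f j‖ ≤ 1) (hg : 0 < g) (hε : 0 ≤ ε) (hS : S ⊆ range d)
    (hw : ∀ i ∈ S, |win e m β d i| ≤ ε) :
    ‖∑ i ∈ S, (win e m β d i : ℂ) * f i * cexp (((i : ℂ) - d) * ((g : ℂ) - u * I))‖ ≤ ε / g := by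
  calc _ ≤ ∑ i ∈ S, ε * Real.exp (((i : ℝ) - d) * g) :=
        norm_sum_le_of_le _ fun i hi => fc_term hf (hw i hi)
    _ ≤ ∑ i ∈ range d, ε * Real.exp (((i : ℝ) - d) * g) :=
        sum_le_sum_of_subset_of_nonneg hS fun i _ _ => by positivity
    _ ≤ ε * (1 / g) := by
        rw [← mul_sum]
        exact mul_le_mul_of_nonneg_left (geo_le hg d) hε
    _ = ε / g := by ring

theorem fac_bd {g β u : ℝ} {f : ℕ → ℂ} {e : ℕ → ℝ} {m d : ℕ} (hf : ∀ j, ‖f j‖ ≤ 1) (hg : 0 < g)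
    (hw : ∀ i, i < d → |win e m β d i| ≤ 1) (s : ℕ) : ‖Fs e m β d g f u s‖ ≤ 1 / g := by
  have hS : range (d - s) ⊆ range d := range_subset_range.2 (Nat.sub_le d s)
  exact fc_sum hf hg zero_le_one hS fun i hi => hw i (mem_range.1 (hS hi))

theorem fac_near {g β u ε : ℝ} {f : ℕ → ℂ} {e : ℕ → ℝ} {m d L s : ℕ} (hf : ∀ j, ‖f j‖ ≤ 1)
    (hg : 0 < g) (hε : 0 ≤ ε) (hw : ∀ i, i < d → d ≤ i + L → |win e m β d i| ≤ ε) (hs : s ≤ L) :
    ‖Fs e m β d g f u s - Fs e m β d g f u 0‖ ≤ ε / g := by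
  rw [norm_sub_rev]
  simp only [Fs, gf, Nat.sub_zero]
  rw [← sum_Ico_eq_sub _ (Nat.sub_le d s)]
  refine fc_sum hf hg hε (fun i hi => mem_range.2 (mem_Ico.1 hi).2) fun i hi => ?_
  obtain ⟨h1, h2⟩ := mem_Ico.1 hi
  exact hw i h2 (by omega)

theorem fac_sub {g β u : ℝ} (f f' : ℕ → ℂ) (e : ℕ → ℝ) (m c d : ℕ) :
    ‖Fs e m β d g f u 0 - Fs e m β d g f' u 0‖ = Real.exp (((c : ℝ) - d) * g) *
      ‖gf (fun j => (win e m β d j : ℂ) * (f j - f' j)) c d ((g : ℂ) - u * I)‖ := by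
  have h1 : Fs e m β d g f u 0 - Fs e m β d g f' u 0 =
      gf (fun j => (win e m β d j : ℂ) * (f j - f' j)) d d ((g : ℂ) - u * I) := by
    simp only [Fs, gf, Nat.sub_zero]
    rw [← sum_sub_distrib]
    exact sum_congr rfl fun i _ => by ring
  have h2 : (((c : ℂ) - d) * ((g : ℂ) - u * I)).re = ((c : ℝ) - d) * g := by simp
  rw [h1, gf_shift _ c, norm_mul, Complex.norm_exp, h2]

end Vale.Agent.P321U
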