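import Vale.Agent.P321U.GenC

open Finset Complex MeasureTheory

namespace Vale.Agent.P321U

theorem ge_norm (j c : ℕ) (g u : ℝ) :
    ‖cexp (((j : ℂ) - c) * ((g : ℂ) - u * I))‖ = Real.exp (((j : ℝ) - c) * g) := by
  rw [Complex.norm_exp]
  simp

theorem ge_diff (h : ℕ → ℂ) (c D J : ℕ) (g u ε : ℝ) (π : ℕ → ℝ) (hJ : D ≤ J)
    (h1 : ∀ j, j < J → 0 ≤ π j ∧ π j ≤ 1) (h2 : ∀ j, j < D → 1 - π j ≤ ε) :
    ‖gf h c D ((g : ℂ) - u * I) - gf (fun j => (π j : ℂ) * h j) c J ((g : ℂ) - u * I)‖ ≤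
      ε * l1 h c D g + ∑ j ∈ Ico D J, ‖h j‖ * Real.exp (((j : ℝ) - c) * g) := by
  unfold gf l1
  rw [← sum_range_add_sum_Ico _ hJ, ← sub_sub, ← sum_sub_distrib, mul_sum]
  refine (norm_sub_le _ _).trans (add_le_add ((norm_sum_le _ _).trans (sum_le_sum fun j hj => ?_))
    ((norm_sum_le _ _).trans (sum_le_sum fun j hj => ?_)))
  · have hj' := mem_range.1 hj
    have e : h j * cexp (((j : ℂ) - c) * ((g : ℂ) - u * I)) -
        (π j : ℂ) * h j * cexp (((j : ℂ) - c) * ((g : ℂ) - u * I)) =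
        ((1 - π j : ℝ) : ℂ) * (h j * cexp (((j : ℂ) - c) * ((g : ℂ) - u * I))) := by
      push_cast
      ring
    rw [e, norm_mul, norm_mul, ge_norm, Complex.norm_real,
      Real.norm_of_nonneg (sub_nonneg.2 (h1 j (hj'.trans_le hJ)).2)]
    exact mul_le_mul_of_nonneg_right (h2 j hj') (by positivity)
  · have hj' := h1 j (mem_Ico.1 hj).2
    rw [mul_assoc, norm_mul, norm_mul, ge_norm, Complex.norm_real, Real.norm_of_nonneg hj'.1]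
    exact mul_le_of_le_one_left (by positivity) hj'.2

theorem gen : ∃ M : ℕ, 1 ≤ M ∧ ∀ (h : ℕ → ℂ) (c : ℕ) (γ g N : ℝ), 1 ≤ N → Real.exp (-N) ≤ γ →
    γ ≤ 1 → 0 ≤ g → g ≤ γ / 24000 → (c : ℝ) ≤ Real.exp N → (∀ j, ‖h j‖ ≤ 2) →
    Dec h c γ (Real.exp N) → Low h c γ (Real.exp (-N)) →
    ∃ Δ : ℕ, γ * Δ ≤ 3 * M * N ∧ ∀ (J : ℕ) (π : ℕ → ℝ), c + Δ ≤ J →
      (∀ j, j < J → 0 ≤ π j ∧ π j ≤ 1) →
      (∀ j, j < c + Δ → 1 - π j ≤ Real.exp (-((M + 5) * N))) →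
      volume.real {u : ℝ | |u| ≤ γ / 6000 ∧
        ‖gf (fun j => (π j : ℂ) * h j) c J ((g : ℂ) - u * I)‖ < Real.exp (-(M * N))} ≤
        γ / 48000 := by
  obtain ⟨M, hM, H⟩ := gen_c
  refine ⟨M, hM, fun h c γ g N hN hγ hγ1 hg hg' hc h2 hd hl => ?_⟩
  obtain ⟨Δ, hΔ, htail, hvol⟩ := H h c γ g N hN hγ hγ1 hg hg' hc h2 hd hl
  refine ⟨Δ, hΔ, fun J π hJ p1 p2 => le_trans (measureReal_mono ?_ ?_) hvol⟩
  · rintro u ⟨hu, hlt⟩
    refine ⟨hu, ?_⟩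
    have hγ0 : 0 < γ := (Real.exp_pos _).trans_le hγ
    have k1 := ge_diff h c (c + Δ) J g u _ π hJ p1 p2
    have k2 := l1_exp h2 hd hN hc hγ hg (by linarith) (c + Δ)
    have k3 : Real.exp (-((M + 5) * N)) * l1 h c (c + Δ) g ≤ Real.exp (-(M * N)) := by
      refine (mul_le_mul_of_nonneg_left k2 (Real.exp_pos _).le).trans_eq ?_
      rw [← Real.exp_add]
      ring_nf
    have k4 := htail J
    have k5 := norm_sub_norm_le (gf h c (c + Δ) ((g : ℂ) - u * I))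
      (gf (fun j => (π j : ℂ) * h j) c J ((g : ℂ) - u * I))
    linarith
  · refine ne_top_of_le_ne_top ?_
      (measure_mono (t := Set.Icc (-(γ / 6000)) (γ / 6000)) fun u hu => abs_le.1 hu.1)
    rw [Real.volume_Icc]
    exact ENNReal.ofReal_ne_top

end Vale.Agent.P321U
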