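import Vale.Agent.P321U.L1
import Vale.Agent.P321U.Arc

open Finset Complex MeasureTheory

namespace Vale.Agent.P321U

theorem ga_low {N a b : ℝ} (hN : 1 ≤ N) (h : Real.exp (-N) ≤ a + b)
    (hb : b ≤ Real.exp (-(2 * N))) : Real.exp (5 * N) * Real.exp (-(7 * N)) ≤ a := by
  have h1 : Real.exp (-N) = Real.exp N * Real.exp (-(2 * N)) := by
    rw [← Real.exp_add]; congr 1; ring
  have h2 : Real.exp (5 * N) * Real.exp (-(7 * N)) = Real.exp (-(2 * N)) := by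
    rw [← Real.exp_add]; congr 1; ring
  have h3 := Real.add_one_le_exp N
  have h4 := Real.exp_pos (-(2 * N))
  nlinarith

theorem gen_a : ∃ M : ℕ, 1 ≤ M ∧ ∀ (h : ℕ → ℂ) (c : ℕ) (γ N : ℝ), 1 ≤ N → Real.exp (-N) ≤ γ →
    (c : ℝ) ≤ Real.exp N → (∀ j, ‖h j‖ ≤ 2) → Dec h c γ (Real.exp N) →
    Low h c γ (Real.exp (-N)) → ∀ Δ : ℕ, 2 ≤ Δ → 4 * N ≤ γ * Δ →
    ∃ w : ℂ, ‖w - (γ / 6000 : ℝ)‖ ≤ γ / 12000 ∧
      Real.exp (5 * N) * Real.exp (-(M * N)) ≤ ‖gf h c (c + Δ) w‖ := by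
  obtain ⟨n, hn⟩ := exists_nat_ge (12000 * 500001 : ℝ)
  have hn1 : 1 ≤ n := by
    have : (1 : ℝ) ≤ n := by linarith
    exact_mod_cast this
  refine ⟨(4 * n) ^ n * 7, Nat.mul_pos (Nat.pow_pos (by omega)) (by norm_num), ?_⟩
  intro h c γ N hN hγ hc h2 hd hl Δ hΔ hΔ'
  have hγ0 : 0 < γ := (Real.exp_pos _).trans_le hγ
  obtain ⟨u, hu, hlow⟩ := hl (c + Δ) (by omega)
  have hz := ga_low hN hlow (Real.exp_le_exp.2 (by push_cast; linarith))
  have hr : ‖((γ / 6000 : ℝ) : ℂ) - (((γ / 2 : ℝ) : ℂ) + u * I)‖ ≤ n * (γ / 6000) / 2 := by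
    refine (norm_le_abs_re_add_abs_im _).trans ?_
    simp only [sub_re, add_re, ofReal_re, mul_re, I_re, mul_zero, ofReal_im, I_im, mul_one,
      sub_self, add_zero, sub_im, add_im, mul_im, zero_add, zero_sub, abs_neg]
    rw [abs_of_nonpos (by linarith)]
    nlinarith
  obtain ⟨w, hw1, hw2⟩ := chain (gf_diff h c (c + Δ)) hn1 (Real.exp_pos (5 * N))
    (show 0 < 7 * N by linarith) hr (fun t t0 t1 w hw => by
      have h3 := abs_le.1 ((abs_re_le_norm _).trans hw)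
      simp only [sub_re, add_re, ofReal_re, mul_re, I_re, mul_zero, ofReal_im, I_im, mul_one,
        sub_self, add_zero, zero_mul, sub_zero] at h3
      exact (norm_gf_le _ _ _ _).trans (l1_exp h2 hd hN hc hγ (by nlinarith [h3.1])
        (by nlinarith [h3.2]) _)) hz
  refine ⟨w, hw1.trans_eq (by ring), le_of_eq_of_le ?_ hw2⟩
  push_cast
  rw [mul_assoc]

end Vale.Agent.P321U
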