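import Vale.Agent.P321U.L1
import Vale.Agent.P321U.Jen

open Finset Complex MeasureTheory

namespace Vale.Agent.P321U

theorem gb_id (h : ℕ → ℂ) (c Δ : ℕ) (g : ℝ) (z : ℂ) :
    ∑ i ∈ range (c + Δ), h (c + Δ - 1 - i) * cexp ((((c + Δ - 1 - i : ℕ) : ℂ) - c) * g) *
      cexp z ^ i = cexp (((Δ : ℂ) - 1) * z) * gf h c (c + Δ) (g - z) := by
  rw [gf, mul_sum, ← sum_range_reflect
    (fun j => cexp (((Δ : ℂ) - 1) * z) * (h j * cexp (((j : ℂ) - c) * (g - z))))]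
  refine sum_congr rfl fun i hi => ?_
  have e : ((c + Δ - 1 - i : ℕ) : ℂ) = c + Δ - 1 - i := by
    have := mem_range.1 hi
    rw [Nat.sub_sub, Nat.cast_sub (by omega)]
    push_cast
    ring
  rw [← Complex.exp_nat_mul, mul_assoc, ← Complex.exp_add, mul_left_comm, ← Complex.exp_add, e]
  congr 2
  ring

theorem gb_l1 (h : ℕ → ℂ) (c J : ℕ) (g : ℝ) :
    ∑ i ∈ range J, ‖h (J - 1 - i) * cexp ((((J - 1 - i : ℕ) : ℂ) - c) * g)‖ = l1 h c J g := by
  rw [sum_range_reflect (fun j => ‖h j * cexp (((j : ℂ) - c) * g)‖), l1]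
  refine sum_congr rfl fun j _ => ?_
  rw [norm_mul, Complex.norm_exp]
  simp

theorem gb_num {N lam η t : ℝ} (hN : 0 < N) (hη : 0 < η) (h0 : η / 4 ≤ lam) (h1 : lam ≤ 3 / 2 * η)
    (t0 : 0 ≤ t) (t1 : t ≤ η / 2) :
    2 * Real.pi * N * (lam ^ 2 + (η + t) ^ 2) / (lam * (1000 * N)) ≤ η / 8 := by
  have l0 : 0 < lam := by linarith
  have a1 : (η + t) ^ 2 ≤ 9 * η * lam := by nlinarith
  have a2 : lam ^ 2 ≤ 3 / 2 * η * lam := by nlinarith
  have a3 : Real.pi * (lam ^ 2 + (η + t) ^ 2) ≤ 4 * (3 / 2 * η * lam + 9 * η * lam) :=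
    mul_le_mul Real.pi_le_four (add_le_add a2 a1) (by positivity) (by norm_num)
  rw [div_le_iff₀ (by positivity)]
  nlinarith [mul_le_mul_of_nonneg_left a3 hN.le, mul_pos hN (mul_pos hη l0)]

theorem gen_b {h : ℕ → ℂ} {c Δ : ℕ} {g η K s : ℝ} {w : ℂ} (hΔ : 1 ≤ Δ) (hη : 0 < η)
    (hη1 : η ≤ 1 / 3) (hg : 0 ≤ g) (hg' : g ≤ η / 4) (hK : 0 < K) (hs : 0 < s)
    (hl : l1 h c (c + Δ) g ≤ K) (hw : ‖w - η‖ ≤ η / 2)
    (hz : K * Real.exp (-s) ≤ ‖gf h c (c + Δ) w‖) :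
    volume.real {u : ℝ | |u| ≤ η ∧ ‖gf h c (c + Δ) ((g : ℂ) - u * I)‖ <
      K * Real.exp (-(1000 * (s + 3 / 2 * η * Δ)))} ≤ η / 8 := by
  have r1 := abs_le.1 ((abs_re_le_norm _).trans hw)
  have r2 := (abs_im_le_norm _).trans hw
  simp only [sub_re, ofReal_re, sub_im, ofReal_im, sub_zero] at r1 r2
  have D1 : (1 : ℝ) ≤ Δ := by exact_mod_cast hΔ
  have N0 : 0 < s + 3 / 2 * η * Δ := by positivity
  have lg : ∀ x : ℝ, Real.log (K / (K * Real.exp (-x))) = x := fun x => by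
    rw [div_mul_cancel_left₀ hK.ne', ← Real.exp_neg, neg_neg, Real.log_exp]
  have key := jen_sum (fun i => h (c + Δ - 1 - i) * cexp ((((c + Δ - 1 - i : ℕ) : ℂ) - c) * g))
    (c + Δ) (lam := w.re - g) (t0 := -w.im) (a := η) (M := K)
    (τ := K * Real.exp (-(s + 3 / 2 * η * Δ))) (ε := K * Real.exp (-(1000 * (s + 3 / 2 * η * Δ))))
    (by linarith) (by linarith) (by linarith [Real.pi_gt_three]) (by positivity)
    (mul_lt_of_lt_one_right hK (Real.exp_lt_one_iff.2 (by linarith))) (by positivity)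
    ((gb_l1 h c _ g).trans_le hl) (by
      have e : (g : ℂ) - (((-w.im : ℝ) : ℂ) * I - ((w.re - g : ℝ) : ℂ)) = w := by
        apply Complex.ext <;> simp
      rw [gb_id, e, norm_mul, Complex.norm_exp]
      refine le_trans ?_ (mul_le_mul_of_nonneg_left hz (Real.exp_pos _).le)
      rw [mul_left_comm, ← Real.exp_add]
      refine mul_le_mul_of_nonneg_left (Real.exp_le_exp.2 ?_) hK.le
      simp only [mul_re, sub_re, natCast_re, one_re, ofReal_re, I_re, mul_zero, ofReal_im, I_im,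
        zero_mul, sub_zero, zero_sub, sub_im, natCast_im, one_im]
      nlinarith)
  rw [lg, lg, abs_neg] at key
  refine le_trans (le_of_eq ?_) (key.trans (gb_num N0 hη (by linarith) (by linarith)
    (abs_nonneg _) r2))
  congr 1
  ext θ
  simp only [Set.mem_setOf_eq, gb_id, norm_mul, Complex.norm_exp]
  simp

end Vale.Agent.P321U
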