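import Vale.Agent.P321U.GenA
import Vale.Agent.P321U.GenB

open Finset Complex MeasureTheory

namespace Vale.Agent.P321U

theorem gc_three : (3 : ℝ) ≤ Real.exp 2 := by
  have := Real.add_one_le_exp (2 : ℝ)
  linarith

theorem gen_c : ∃ M : ℕ, 1 ≤ M ∧ ∀ (h : ℕ → ℂ) (c : ℕ) (γ g N : ℝ), 1 ≤ N → Real.exp (-N) ≤ γ →
    γ ≤ 1 → 0 ≤ g → g ≤ γ / 24000 → (c : ℝ) ≤ Real.exp N → (∀ j, ‖h j‖ ≤ 2) →
    Dec h c γ (Real.exp N) → Low h c γ (Real.exp (-N)) →
    ∃ Δ : ℕ, γ * Δ ≤ 3 * M * N ∧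
      (∀ J : ℕ, ∑ j ∈ Ico (c + Δ) J, ‖h j‖ * Real.exp (((j : ℝ) - c) * g) ≤ Real.exp (-(M * N))) ∧
      volume.real {u : ℝ | |u| ≤ γ / 6000 ∧ ‖gf h c (c + Δ) ((g : ℂ) - u * I)‖ <
        3 * Real.exp (-(M * N))} ≤ γ / 48000 := by
  obtain ⟨M1, hM1, hA⟩ := gen_a
  refine ⟨2000 * M1 + 1500, by omega, ?_⟩
  intro h c γ g N hN hγ hγ1 hg hg' hc h2 hd hl
  have hγ0 : 0 < γ := lt_of_lt_of_le (Real.exp_pos _) hγ
  have hM1' : (1 : ℝ) ≤ M1 := by exact_mod_cast hM1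
  have hMN : N ≤ (M1 : ℝ) * N := by nlinarith
  have hx : 0 ≤ 4000 * ((M1 : ℝ) + 1) * N / γ := by positivity
  obtain ⟨Δ, hlo, hhi⟩ : ∃ Δ : ℕ, 4000 * ((M1 : ℝ) + 1) * N ≤ γ * Δ ∧
      γ * Δ ≤ 4000 * ((M1 : ℝ) + 1) * N + 1 := by
    refine ⟨⌈4000 * ((M1 : ℝ) + 1) * N / γ⌉₊, ?_, ?_⟩
    · have := Nat.le_ceil (4000 * ((M1 : ℝ) + 1) * N / γ)
      rw [div_le_iff₀ hγ0] at this
      linarith
    · have := (Nat.ceil_lt_add_one hx).le
      have h3 := mul_le_mul_of_nonneg_left this hγ0.le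
      rw [mul_add γ, mul_div_cancel₀ _ hγ0.ne'] at h3
      linarith
  have hΔ2 : 2 ≤ Δ := by
    have h1 : γ * Δ ≤ Δ := by
      have : (0 : ℝ) ≤ Δ := Nat.cast_nonneg _
      nlinarith
    have h3 : (2 : ℝ) ≤ Δ := by nlinarith
    exact_mod_cast h3
  have hcast : ((2000 * M1 + 1500 : ℕ) : ℝ) = 2000 * (M1 : ℝ) + 1500 := by push_cast; ring
  have hinv : 1 / γ ≤ Real.exp N := by
    rw [div_le_iff₀ hγ0]
    have h1 : Real.exp N * Real.exp (-N) = 1 := by rw [← Real.exp_add]; simp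
    have h3 := mul_le_mul_of_nonneg_left hγ (Real.exp_pos N).le
    linarith
  refine ⟨Δ, ?_, ?_, ?_⟩
  · rw [hcast]; nlinarith
  · intro J
    have hyγ : g < γ := by linarith
    refine (l1_tail hd hyγ Δ J).trans ?_
    have hΔ0 : (0 : ℝ) ≤ Δ := Nat.cast_nonneg _
    have h1 : Real.exp (-((γ - g) * Δ)) ≤ Real.exp (-(2000 * ((M1 : ℝ) + 1) * N)) := by
      apply Real.exp_le_exp.2
      have : γ / 2 * Δ ≤ (γ - g) * Δ := mul_le_mul_of_nonneg_right (by linarith) hΔ0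
      linarith
    have h3 : 1 + 1 / (γ - g) ≤ Real.exp (2 + N) := by
      have h4 : 1 / (γ - g) ≤ 2 * (1 / γ) := by
        rw [mul_one_div, div_le_div_iff₀ (by linarith) hγ0]
        linarith
      have h5 : 1 ≤ Real.exp N := Real.one_le_exp (by linarith)
      have h6 := mul_le_mul_of_nonneg_right gc_three (Real.exp_pos N).le
      rw [Real.exp_add]
      linarith
    calc Real.exp N * Real.exp (-((γ - g) * Δ)) * (1 + 1 / (γ - g))
        ≤ Real.exp N * Real.exp (-(2000 * ((M1 : ℝ) + 1) * N)) * Real.exp (2 + N) := by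
          have h7 : 0 ≤ 1 + 1 / (γ - g) := by
            have : 0 < γ - g := by linarith
            positivity
          gcongr
      _ ≤ _ := by
          rw [← Real.exp_add, ← Real.exp_add, hcast]
          apply Real.exp_le_exp.2
          nlinarith
  · obtain ⟨w, hw, hz⟩ := hA h c γ N hN hγ hc h2 hd hl Δ hΔ2 (by nlinarith)
    have hB := gen_b (h := h) (c := c) (Δ := Δ) (g := g) (η := γ / 6000) (K := Real.exp (5 * N))
      (s := M1 * N) (w := w) (by omega) (by positivity) (by linarith) hg (by linarith)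
      (Real.exp_pos _) (by positivity) (l1_exp h2 hd hN hc hγ hg (by linarith) _)
      (by linarith) hz
    refine le_trans (measureReal_mono ?_ ?_) (hB.trans (by linarith))
    · rintro u ⟨hu1, hu2⟩
      refine ⟨hu1, hu2.trans_le ?_⟩
      refine (mul_le_mul_of_nonneg_right gc_three (Real.exp_pos _).le).trans ?_
      rw [← Real.exp_add, ← Real.exp_add, hcast]
      apply Real.exp_le_exp.2
      nlinarith
    · refine ne_top_of_le_ne_top (b := volume (Set.Icc (-(γ / 6000)) (γ / 6000))) ?_ ?_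
      · exact measure_Icc_lt_top.ne
      · exact measure_mono fun u hu => abs_le.1 hu.1

end Vale.Agent.P321U
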