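import Vale.Agent.P321U.Step
import Vale.Agent.P321U.Base

open Finset Complex MeasureTheory

namespace Vale.Agent.P321U

theorem it_sq {p : ℝ} (hp : 0 < p) (l : ℕ) :
    (p / 24000 ^ 2 ^ l) ^ 2 / p = p / 24000 ^ 2 ^ (l + 1) := by
  rw [pow_succ 2 l, pow_mul]
  field_simp

theorem it_le {p : ℝ} (hp : 0 < p) (l : ℕ) : p / 24000 ^ 2 ^ l ≤ p / 24000 :=
  div_le_div_of_nonneg_left hp.le (by norm_num)
    (le_self_pow₀ (by norm_num) (pow_ne_zero l two_ne_zero))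

theorem it_exp {p g : ℝ} {C M : ℕ} (hp : 0 < p) (hp1 : p ≤ 1) (hC : 2 ≤ C)
    (h : Real.exp (-(M : ℝ)) ≤ g) : Real.exp (-((C * M : ℕ) : ℝ)) ≤ g ^ 2 / p := by
  have h1 : (2 : ℝ) * M ≤ (C * M : ℕ) := by exact_mod_cast Nat.mul_le_mul_right M hC
  have h2 : Real.exp (-((C * M : ℕ) : ℝ)) ≤ Real.exp (-(M : ℝ)) ^ 2 := by
    rw [sq, ← Real.exp_add]
    exact Real.exp_le_exp.2 (by linarith)
  exact h2.trans ((pow_le_pow_left₀ (Real.exp_pos _).le h 2).trans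
    (le_div_self (sq_nonneg _) hp hp1))

theorem iter : ∃ C : ℕ, 2 ≤ C ∧ ∀ (X Y : ℕ → Bool) (q : ℝ) (N l : ℕ), 0 ≤ q → q < 1 → 1 ≤ N →
    Real.exp (-(N : ℝ)) ≤ (1 - q) / 24000 → Inv X Y q ((1 - q) / 24000) N →
    Sig X Y (q ^ 3 ^ (l + 1)) ((1 - q) / 24000 ^ 2 ^ (l + 1)) (C ^ (l + 1) * N) := by
  obtain ⟨C, hC, h⟩ := step
  refine ⟨C, hC, fun X Y q N l hq hq1 hN he hI => ?_⟩
  have hp : 0 < 1 - q := by linarith
  have key : ∀ l : ℕ, Inv X Y (q ^ 3 ^ l) ((1 - q) / 24000 ^ 2 ^ l) (C ^ l * N : ℕ) →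
      Real.exp (-((C ^ l * N : ℕ) : ℝ)) ≤ (1 - q) / 24000 ^ 2 ^ l →
      Inv X Y (q ^ 3 ^ (l + 1)) ((1 - q) / 24000 ^ 2 ^ (l + 1)) (C ^ (l + 1) * N : ℕ) ∧
      Sig X Y (q ^ 3 ^ (l + 1)) ((1 - q) / 24000 ^ 2 ^ (l + 1)) (C ^ (l + 1) * N : ℕ) := by
    intro l h1 h2
    have h3 : q ^ 3 ^ l ≤ q := pow_le_of_le_one hq hq1.le (pow_ne_zero l three_ne_zero)
    have h4 := h X Y (q ^ 3 ^ l) (1 - q) _ (C ^ l * N) (pow_nonneg hq _) hp (by linarith)
      (it_le hp l) (Nat.mul_pos (Nat.pow_pos (by omega)) hN) h2 h1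
    have e : (C : ℝ) * (C ^ l * N : ℕ) = (C ^ (l + 1) * N : ℕ) := by push_cast; ring
    rwa [it_sq hp, ← pow_mul, ← pow_succ, e] at h4
  have key2 : ∀ l : ℕ, Inv X Y (q ^ 3 ^ l) ((1 - q) / 24000 ^ 2 ^ l) (C ^ l * N : ℕ) ∧
      Real.exp (-((C ^ l * N : ℕ) : ℝ)) ≤ (1 - q) / 24000 ^ 2 ^ l := by
    intro l
    induction l with
    | zero => simpa using And.intro hI he
    | succ l ih =>
      refine ⟨(key l ih.1 ih.2).1, ?_⟩
      have h5 := it_exp hp (by linarith) hC ih.2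
      rwa [it_sq hp, ← mul_assoc, ← pow_succ'] at h5
  have h6 := (key l (key2 l).1 (key2 l).2).2
  rwa [Nat.cast_mul, Nat.cast_pow] at h6

theorem it_suf (X : ℕ → Bool) (j : ℕ) : suf X j = List.ofFn fun i : Fin j => X (j - 1 - i) := by
  induction j with
  | zero => rfl
  | succ j ih =>
    rw [suf, ih, List.ofFn_succ]
    congr 2
    funext i
    congr 1
    simp only [Fin.val_succ]
    omega

/-- The reversed word, padded by zeros. -/
def it_ext {n : ℕ} (x : Fin n → Bool) (i : ℕ) : Bool :=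
  if h : i < n then x ⟨n - 1 - i, by omega⟩ else false

theorem it_ext_eq {n : ℕ} (x : Fin n → Bool) (i : Fin n) : it_ext x (n - 1 - i) = x i := by
  have h := i.2
  rw [it_ext, dif_pos (by omega)]
  congr 1
  ext
  simp only
  omega

theorem it_pad {n : ℕ} (x : Fin n → Bool) (t : ℕ) :
    suf (it_ext x) (n + t) = List.replicate t false ++ List.ofFn x := by
  induction t with
  | zero => simp only [add_zero, it_suf, it_ext_eq, List.replicate_zero, List.nil_append]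
  | succ t ih =>
    rw [← add_assoc, suf, ih, List.replicate_succ, it_ext, dif_neg (by omega), List.cons_append]

theorem gap : ∃ C : ℕ, 2 ≤ C ∧ ∀ (q : ℝ) (n l N : ℕ), 0 ≤ q → q < 1 → n ≤ 2 ^ 2 ^ (l + 1) →
    240000 * Real.log (n + 2) / (1 - q) ≤ N → ∀ x y : Fin n → Bool, x ≠ y →
    ∃ f, Rl (q ^ 3 ^ (l + 1)) 1 f ∧
      Real.exp (-(C ^ (l + 1) * N : ℝ)) ≤ ‖f (List.ofFn x) - f (List.ofFn y)‖ := by
  obtain ⟨C, hC, h⟩ := iter
  refine ⟨C, hC, fun q n l N hq hq1 hn hN x y hxy => ?_⟩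
  have hp : 0 < 1 - q := by linarith
  obtain ⟨i, hi⟩ := Function.ne_iff.1 hxy
  obtain ⟨c, hc⟩ : ∃ c, c = Nat.findGreatest (fun i => it_ext x i ≠ it_ext y i) n := ⟨_, rfl⟩
  have c1 : it_ext x c ≠ it_ext y c := hc ▸ Nat.findGreatest_spec
    (P := fun i => it_ext x i ≠ it_ext y i) (m := n - 1 - i) (by omega)
    (by simpa only [it_ext_eq] using hi)
  have c2 : ∀ j, c < j → it_ext x j = it_ext y j := fun j hj => by
    by_cases hjn : j ≤ n
    · exact not_not.1 (Nat.findGreatest_is_greatest (hc ▸ hj) hjn)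
    · rw [it_ext, it_ext, dif_neg (by omega), dif_neg (by omega)]
  have c3 : (c : ℝ) ≤ n := by exact_mod_cast hc ▸ Nat.findGreatest_le n
  have n0 : (0 : ℝ) ≤ n := Nat.cast_nonneg n
  have c0 : (0 : ℝ) ≤ c := Nat.cast_nonneg c
  have l1 : Real.log (c + 2) ≤ Real.log (n + 2) := Real.log_le_log (by linarith) (by linarith)
  have l2 : Real.log 2 ≤ Real.log (n + 2) := Real.log_le_log two_pos (by linarith)
  have l3 := Real.log_two_gt_d9
  rw [div_le_iff₀ hp] at hN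
  have N0 : (0 : ℝ) ≤ N := Nat.cast_nonneg N
  have N1 : (1 : ℝ) ≤ N := by nlinarith
  have hI := base (q := q) (γ := (1 - q) / 24000) (N := N) hq (by positivity) (by linarith) c1 c2
    (by rw [div_le_iff₀ (by positivity)]; linarith)
  have he : Real.exp (-(N : ℝ)) ≤ (1 - q) / 24000 := by
    rw [Real.exp_neg, inv_eq_one_div, div_le_div_iff₀ (Real.exp_pos _) (by norm_num)]
    have := mul_le_mul_of_nonneg_left (Real.add_one_le_exp (N : ℝ)) hp.le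
    linarith
  obtain ⟨f, g, j, ⟨φ, h1, -, h2, h3⟩, h4, h5⟩ :=
    h _ _ q N l hq hq1 (by exact_mod_cast N1) he hI
  have hj : n ≤ j := by
    have j0 : (0 : ℝ) ≤ j := Nat.cast_nonneg j
    have a1 : (2 : ℝ) ^ 2 ^ (l + 1) ≤ 24000 ^ 2 ^ (l + 1) :=
      pow_le_pow_left₀ zero_le_two (by norm_num) _
    have a2 : (n : ℝ) ≤ 2 ^ 2 ^ (l + 1) := by exact_mod_cast hn
    rw [div_mul_eq_mul_div, one_le_div (by positivity)] at h4
    have a3 : (n : ℝ) ≤ j := by nlinarith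
    exact_mod_cast a3
  obtain ⟨t, rfl⟩ := Nat.exists_eq_add_of_le hj
  refine ⟨fun w => φ (List.replicate t false ++ w),
    h1.append (pow_nonneg hq _) (pow_le_one₀ hq hq1.le) _, ?_⟩
  rwa [h2, h3, it_pad, it_pad] at h5

end Vale.Agent.P321U
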