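import Vale.Agent.P321U.Df

open Finset Complex

namespace Vale.Agent.P321U

variable {X Y : ℕ → Bool} {q C D : ℝ} {f g f' g' : ℕ → ℂ}

theorem Pr.nonneg (h : Pr X Y q C f g) : 0 ≤ C := h.elim fun _ h => h.1.nonneg

theorem Pr.norm_le (hq : 0 ≤ q) (hq1 : q ≤ 1) (h : Pr X Y q C f g) (j : ℕ) :
    ‖f j‖ ≤ C ∧ ‖g j‖ ≤ C := by
  obtain ⟨φ, h1, -, h3, h4⟩ := h
  rw [h3, h4]
  exact ⟨h1.norm_le hq hq1 _, h1.norm_le hq hq1 _⟩

theorem Pr.mono (h : Pr X Y q C f g) (hC : C ≤ D) : Pr X Y q D f g :=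
  h.imp fun _ h => ⟨h.1.mono hC, h.2⟩

theorem Pr.of_le {q' : ℝ} (h0 : 0 ≤ q') (hq : q' ≤ q) (hq1 : q < 1) (h : Pr X Y q C f g) :
    Pr X Y q' C f g :=
  h.imp fun _ h => ⟨h.1.of_le h0 hq hq1, h.2⟩

theorem Pr.smul (h : Pr X Y q C f g) (c : ℂ) :
    Pr X Y q (‖c‖ * C) (fun j => c * f j) fun j => c * g j := by
  obtain ⟨φ, h1, h2, h3, h4⟩ := h
  exact ⟨_, h1.smul c, by simp [h2], fun j => by simp only [h3], fun j => by simp only [h4]⟩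

theorem Pr.conj (h : Pr X Y q C f g) :
    Pr X Y q C (fun j => (starRingEnd ℂ) (f j)) fun j => (starRingEnd ℂ) (g j) := by
  obtain ⟨φ, h1, h2, h3, h4⟩ := h
  exact ⟨_, h1.conj, by simp [h2], fun j => by simp only [h3], fun j => by simp only [h4]⟩

theorem Pr.mul {q₁ q₂ : ℝ} (h1 : 0 ≤ q₁) (h1' : q₁ ≤ 1) (h2 : 0 ≤ q₂) (h2' : q₂ < 1)
    (h : Pr X Y q₁ C f g) (h' : Pr X Y q₂ D f' g') :
    Pr X Y (q₁ * q₂) (C * D) (fun j => f j * f' j) fun j => g j * g' j := by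
  obtain ⟨φ, a1, a2, a3, a4⟩ := h
  obtain ⟨ψ, b1, b2, b3, b4⟩ := h'
  exact ⟨_, a1.mul h1 h1' h2 h2' b1, by simp [a2], fun j => by simp only [a3, b3],
    fun j => by simp only [a4, b4]⟩

theorem kr_suf (ζ : ℂ) {φ : List Bool → ℂ} (h : φ [] = 0) (X : ℕ → Bool) (j : ℕ) :
    kr ζ φ (suf X j) = kS ζ (fun i => φ (suf X i)) j := by
  induction j with
  | zero => simp [suf, kr, kS, h]
  | succ j ih =>
    rw [suf, kr, ih, kS, kS, sum_range_succ, Nat.add_sub_cancel_left, pow_one, mul_add, add_comm,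
      mul_sum]
    congr 1
    refine sum_congr rfl fun i hi => ?_
    rw [Nat.succ_sub (mem_range.1 hi).le, pow_succ']
    ring

theorem Pr.kS {ζ : ℂ} (hζ : ‖ζ - q‖ < 1 - q) (h : Pr X Y q C f g) :
    Pr X Y q (‖ζ‖ / (1 - q - ‖ζ - q‖) * C) (kS ζ f) (kS ζ g) := by
  obtain ⟨φ, h1, h2, h3, h4⟩ := h
  refine ⟨_, h1.kr hζ, by simp [kr, h2], fun j => ?_, fun j => ?_⟩
  · rw [kr_suf ζ h2, show f = _ from funext h3]
  · rw [kr_suf ζ h2, show g = _ from funext h4]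

end Vale.Agent.P321U
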