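import Vale.Agent.P321U.StepA
import Vale.Agent.P321U.Band

open Finset Complex MeasureTheory

namespace Vale.Agent.P321U

theorem Dec.shift {h : ℕ → ℂ} {c d : ℕ} {γ K K' : ℝ} (hd : Dec h c γ K) (hγ : 0 ≤ γ) (hc : c ≤ d)
    (hK : K ≤ K') (hK' : 0 ≤ K') : Dec h d γ K' := fun j => by
  refine (hd j).trans ((mul_le_mul_of_nonneg_right hK (Real.exp_pos _).le).trans ?_)
  have : (c : ℝ) ≤ d := by exact_mod_cast hc
  exact mul_le_mul_of_nonneg_left (Real.exp_le_exp.2 (by nlinarith)) hK'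

theorem step_inv {γ p N : ℝ} (hp : 0 < p) (hp1 : p ≤ 1) (hγ : Real.exp (-N) ≤ γ) :
    1 / (γ ^ 2 / p) ≤ Real.exp (2 * N) := by
  have hγ0 : 0 < γ := (Real.exp_pos _).trans_le hγ
  have h1 : Real.exp (-N) ^ 2 ≤ γ ^ 2 / p :=
    (pow_le_pow_left₀ (Real.exp_pos _).le hγ 2).trans (le_div_self (by positivity) hp hp1)
  rw [← Real.exp_nat_mul] at h1
  rw [div_le_iff₀ (by positivity), ← div_le_iff₀' (Real.exp_pos _), one_div, ← Real.exp_neg]
  rwa [Nat.cast_ofNat, mul_neg] at h1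

theorem step_K {g N : ℝ} (hg0 : 0 < g) (hN1 : 1 ≤ N) (hg2 : 1 / g ≤ Real.exp (2 * N)) :
    2 * (1 + 1 / (g / 2)) + Real.exp (5 * N) / (g - g / 2) ≤ Real.exp (10 * N) := by
  have e2 : 1 ≤ Real.exp (2 * N) := Real.one_le_exp (by linarith)
  have h3 : Real.exp (5 * N) / (g - g / 2) = 2 * (Real.exp (5 * N) * (1 / g)) := by
    field_simp; ring
  have h4 : 1 / (g / 2) = 2 * (1 / g) := by field_simp
  have h5 : Real.exp (10 * N) = Real.exp (3 * N) * (Real.exp (5 * N) * Real.exp (2 * N)) := by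
    rw [← Real.exp_add, ← Real.exp_add]; congr 1; ring
  have h6 : 8 ≤ Real.exp (3 * N) := by
    have := Real.add_one_le_exp N
    rw [show (3 : ℝ) * N = (3 : ℕ) * N by norm_num, Real.exp_nat_mul]
    calc (8 : ℝ) = 2 ^ 3 := by norm_num
      _ ≤ _ := by gcongr; linarith
  have h7 : 1 ≤ Real.exp (5 * N) := Real.one_le_exp (by linarith)
  have h8 : Real.exp (5 * N) * (1 / g) ≤ Real.exp (5 * N) * Real.exp (2 * N) := by gcongr
  have h9 : Real.exp (2 * N) ≤ Real.exp (5 * N) * Real.exp (2 * N) :=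
    le_mul_of_one_le_left (by linarith) h7
  have h10 := mul_le_mul_of_nonneg_right h6 (show 0 ≤ Real.exp (5 * N) * Real.exp (2 * N) by
    positivity)
  rw [h3, h4, h5]
  linarith

theorem step : ∃ C : ℕ, 2 ≤ C ∧ ∀ (X Y : ℕ → Bool) (q p γ : ℝ) (N : ℕ), 0 ≤ q →
    0 < p → p ≤ 1 - q → γ ≤ p / 24000 → 1 ≤ N → Real.exp (-(N : ℝ)) ≤ γ → Inv X Y q γ N →
    Inv X Y (q ^ 3) (γ ^ 2 / p) (C * N) ∧ Sig X Y (q ^ 3) (γ ^ 2 / p) (C * N) := by
  obtain ⟨M, hM, H⟩ := step_a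
  refine ⟨2000 * M, by omega, fun X Y q p γ N hq hp hpq hγp hN hγ hI => ?_⟩
  have hγ0 : 0 < γ := (Real.exp_pos _).trans_le hγ
  have hp1 : p ≤ 1 := by linarith
  have hM1 : (1 : ℝ) ≤ M := by exact_mod_cast hM
  have hN1 : (1 : ℝ) ≤ N := by exact_mod_cast hN
  have hMN : (N : ℝ) ≤ M * N := le_mul_of_one_le_left (by linarith) hM1
  have hg2 := step_inv hp hp1 hγ
  have hg0 : 0 < γ ^ 2 / p := by positivity
  have hg1 : γ ^ 2 / p ≤ 1 / 24000 := by
    rw [div_le_iff₀ hp]; nlinarith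
  have H' := fun L ρ => H X Y q p γ N L ρ hq hp hpq hγp hN hγ hI
  generalize γ ^ 2 / p = g at *
  obtain ⟨Λ, hΛ⟩ : ∃ Λ : ℕ, Λ = ⌈1 / (10000 * g)⌉₊ := ⟨_, rfl⟩
  have hΛ1 : 1 ≤ 10000 * g * Λ := by
    have := Nat.le_ceil (1 / (10000 * g))
    rwa [← hΛ, div_le_iff₀' (by positivity)] at this
  have hΛ2 : 10000 * g * Λ ≤ 2 := by
    have := (Nat.ceil_lt_add_one (show 0 ≤ 1 / (10000 * g) by positivity)).le
    rw [← hΛ] at this
    have h2 := mul_le_mul_of_nonneg_left this (show 0 ≤ 10000 * g by positivity)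
    rw [mul_add, mul_one_div_cancel (by positivity)] at h2
    linarith
  have hΛ0 : 1 ≤ Λ := by
    rcases Nat.eq_zero_or_pos Λ with h | h
    · rw [h] at hΛ1; norm_num at hΛ1
    · exact h
  obtain ⟨ρ, hρ0, hρ1, hρ⟩ := box Λ (5000 * M * N) hΛ0
  have hLr : g * (5000 * M * N * Λ : ℕ) = 5000 * (M * N * (g * Λ)) := by push_cast; ring
  have k1 := mul_le_mul_of_nonneg_left hΛ1 (show (0 : ℝ) ≤ M * N by positivity)
  have k2 := mul_le_mul_of_nonneg_left hΛ2 (show (0 : ℝ) ≤ M * N by positivity)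
  have hL1 : (M * N : ℝ) ≤ 2 * g * (5000 * M * N * Λ : ℕ) := by rw [mul_assoc, hLr]; linarith
  have hL2 : g * (5000 * M * N * Λ : ℕ) ≤ M * N := by rw [hLr]; linarith
  obtain ⟨f, f', c, a, ξ, hc, ha, hξ, hP, hD, hT⟩ := H' _ ρ hL1 hL2 hρ0 hρ1
  have hq3 : q ^ 3 ≤ 1 := pow_le_one₀ hq (by linarith)
  have h2 : ∀ j, ‖f j - f' j‖ ≤ 2 := fun j => by
    have := hP.norm_le (by positivity) hq3 j
    linarith [norm_sub_le (f j) (f' j)]
  have hC : ((2000 * M : ℕ) : ℝ) * N = 2000 * (M * N) := by push_cast; ring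
  have hB : Low (fun j => f j - f' j) (c + 7 * (5000 * M * N * Λ)) g
      (Real.exp (-(2000 * (M * N)))) := by
    refine band (K := Real.exp (10 * N)) (κ := Real.exp (-(1600 * M * N))) hg0 (by linarith) hΛ1
      (by linarith) ha hξ hρ (by omega) (fun J => ?_) hT ?_ (Real.exp_pos _).le ?_
    · exact (l1_le' h2 (hD.shift hg0.le (by omega) le_rfl (Real.exp_pos _).le) (by positivity)
        (by linarith) J).trans (step_K hg0 hN1 hg2)
    · rw [← Real.exp_add]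
      refine Real.exp_lt_exp.2 ?_
      push_cast
      linarith
    · rw [← Real.exp_add]
      refine Real.exp_lt_exp.2 ?_
      push_cast
      linarith
  obtain ⟨s, hs, h3⟩ := tst_pick ha hρ0 hρ1 hT
  generalize 5000 * M * N * Λ = L at *
  have e1 : Real.exp N ≤ Real.exp (2 * N) := Real.exp_le_exp.2 (by linarith)
  rw [hC]
  refine ⟨⟨f, f', c + 7 * L, hP, ?_, hD.shift hg0.le (by omega)
    (Real.exp_le_exp.2 (by linarith)) (Real.exp_pos _).le, hB⟩,
    f, f', c + 7 * L - s, hP, ?_, (Real.exp_le_exp.2 (by linarith)).trans h3⟩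
  · have h3 : (L : ℝ) ≤ M * N * Real.exp (2 * N) := by
      calc (L : ℝ) = g * L * (1 / g) := by field_simp
        _ ≤ _ := mul_le_mul hL2 hg2 (by positivity) (by positivity)
    have h4 : 8 * (M * N : ℝ) ≤ Real.exp (8 * (M * N)) := by
      linarith [Real.add_one_le_exp (8 * (M * N : ℝ))]
    have h5 : Real.exp (2 * N) ≤ M * N * Real.exp (2 * N) :=
      le_mul_of_one_le_left (Real.exp_pos _).le (by linarith)
    calc ((c + 7 * L : ℕ) : ℝ) = c + 7 * L := by push_cast; ring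
      _ ≤ 8 * (M * N) * Real.exp (2 * N) := by linarith
      _ ≤ Real.exp (8 * (M * N)) * Real.exp (2 * N) := by gcongr
      _ ≤ _ := by rw [← Real.exp_add]; exact Real.exp_le_exp.2 (by linarith)
  · have h4 : ((6 * L : ℕ) : ℝ) ≤ (c + 7 * L - s : ℕ) := Nat.cast_le.2 (by omega)
    rw [Nat.cast_mul, Nat.cast_ofNat] at h4
    linarith [mul_le_mul_of_nonneg_left h4 hg0.le]

end Vale.Agent.P321U
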