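import Vale.Agent.P321U.Xp
import Vale.Agent.P321U.Chr

open Finset Complex MeasureTheory

namespace Vale.Agent.P321U

theorem tr_mul {a a' b b' : ℂ} {A B x y : ℝ} (ha : ‖a‖ ≤ A) (hb : ‖b'‖ ≤ B) (h1 : ‖a - a'‖ ≤ x)
    (h2 : ‖b - b'‖ ≤ y) : ‖a * b - a' * b'‖ ≤ A * y + x * B := by
  have e : a * b - a' * b' = a * (b - b') + (a - a') * b' := by ring
  rw [e]
  refine (norm_add_le _ _).trans ?_
  rw [norm_mul, norm_mul]
  exact add_le_add (mul_le_mul ha h2 (norm_nonneg _) ((norm_nonneg _).trans ha))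
    (mul_le_mul h1 hb (norm_nonneg _) ((norm_nonneg _).trans h1))

theorem tr_conj {a a' : ℂ} {x : ℝ} (h : ‖a - a'‖ ≤ x) :
    ‖(starRingEnd ℂ) a - (starRingEnd ℂ) a'‖ ≤ x := by
  rwa [← map_sub, Complex.norm_conj]

theorem tr_fin {p p' r r' : ℂ} {x κ : ℝ} (h1 : ‖p - p'‖ ≤ x) (h2 : ‖r - r'‖ ≤ x)
    (h : 4 * x ≤ κ) : ‖p - r - (p' - r')‖ ≤ κ / 2 := by
  have e : p - r - (p' - r') = (p - p') - (r - r') := by ring
  rw [e]
  linarith [norm_sub_le (p - p') (r - r')]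

theorem tri {X Y : ℕ → Bool} {c d L : ℕ} {q γ E C K T δ σ B ε κ : ℝ} {F G : ℝ → ℕ → ℂ}
    (hq : 0 ≤ q) (hq1 : q < 1) (hT : 0 < T) (hδ : 0 < δ) (hσ : 0 < σ) (hσ1 : σ ≤ 1) (hB : 1 ≤ B)
    (hE : 1 ≤ E) (hC : 1 ≤ C) (hK : 0 ≤ K)
    (hX : ∀ u, |u| ≤ 2 * T → Xp X Y q c d γ E C K u (F u) (G u))
    (hF : ∀ u s, ‖F u s‖ ≤ B) (hG : ∀ u s, ‖G u s‖ ≤ B)
    (hF' : ∀ u s, s ≤ L → ‖F u s - F u 0‖ ≤ ε) (hG' : ∀ u s, s ≤ L → ‖G u s - G u 0‖ ≤ ε)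
    (hbad : volume.real {u : ℝ | |u| ≤ 2 * T ∧ ‖F u 0 - G u 0‖ < σ} ≤ T / 4)
    (hκ : 448 * B * (T + δ) * κ < σ ^ 4 * δ) (hε : 12 * B ^ 2 * ε ≤ κ) :
    ∃ (P Q : ℕ → ℂ) (ξ : ℝ) (c0 : ℂ), |ξ| ≤ δ ∧
      Xp X Y (q ^ 3) c d γ (E ^ 3) (C ^ 3) (3 * K * C ^ 2) ξ P Q ∧ κ ≤ ‖c0‖ ∧
      ∀ s, s ≤ L → ‖P s - Q s - c0‖ ≤ κ / 2 := by
  have e0 : 0 ≤ ε := (norm_nonneg _).trans (hF' 0 0 (Nat.zero_le L))
  have q2 : q * q ≤ q := mul_le_of_le_one_left hq hq1.le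
  have q3 : 0 ≤ q ^ 3 := by positivity
  have two : ∀ {H : ℝ → ℕ → ℂ}, (∀ u s, ‖H u s‖ ≤ B) → (∀ u s, s ≤ L → ‖H u s - H u 0‖ ≤ ε) →
      ∀ u s, s ≤ L → ‖H u s * (starRingEnd ℂ) (H u s) - H u 0 * (starRingEnd ℂ) (H u 0)‖
        ≤ B * ε + ε * B := fun h h' u s hs =>
    tr_mul (h u s) (by rw [Complex.norm_conj]; exact h u 0) (h' u s hs) (tr_conj (h' u s hs))
  have three : ∀ {H : ℝ → ℕ → ℂ}, (∀ u s, ‖H u s‖ ≤ B) → (∀ u s, s ≤ L → ‖H u s - H u 0‖ ≤ ε) →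
      ∀ u v w s, s ≤ L → ‖H u s * H v s * (starRingEnd ℂ) (H w s)
        - H u 0 * H v 0 * (starRingEnd ℂ) (H w 0)‖ ≤ B * B * ε + (B * ε + ε * B) * B :=
    fun h h' u v w s hs => tr_mul ((norm_mul_le _ _).trans (mul_le_mul (h u s) (h v s)
      (norm_nonneg _) (by linarith))) (by rw [Complex.norm_conj]; exact h w 0)
      (tr_mul (h u s) (h v 0) (h' u s hs) (h' v s hs)) (tr_conj (h' w s hs))
  by_cases h2 : ∀ u, |u| ≤ 2 * T → |‖F u 0‖ ^ 2 - ‖G u 0‖ ^ 2| ≤ κ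
  · by_cases h3 : ∀ u v w, |u| ≤ 2 * T → |v| ≤ 2 * T → |w| ≤ 2 * T → u + v ≤ w →
        w ≤ u + v + δ → ‖F u 0 * F v 0 * (starRingEnd ℂ) (F w 0)
          - G u 0 * G v 0 * (starRingEnd ℂ) (G w 0)‖ ≤ κ
    · exact absurd (chr (fun u => F u 0) (fun u => G u 0) hT hδ hσ hσ1 hB (fun u _ => hG u 0) hbad
        h2 h3) (not_le.2 hκ)
    · simp only [not_forall, not_le] at h3
      obtain ⟨u, v, w, hu, hv, hw, a1, a2, a3⟩ := h3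
      refine ⟨_, _, _, _, abs_le.2 ⟨by linarith, by linarith⟩,
        (((hX u hu).mul hq hq1.le hq hq1 (hX v hv)).mul (mul_nonneg hq hq) (q2.trans hq1.le) hq hq1
          (hX w hw).conj).mono q3 (le_of_eq (by ring))
          ((mul_le_of_le_one_left hq (q2.trans hq1.le)).trans_lt hq1) (le_of_eq (by ring))
          (le_of_eq (by ring)) (le_of_eq (by ring)), a3.le, fun s hs =>
        tr_fin (three hF hF' u v w s hs) (three hG hG' u v w s hs) (by linarith)⟩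
  · simp only [not_forall, not_le] at h2
    obtain ⟨u, hu, a⟩ := h2
    have b1 : 0 ≤ K * C := mul_nonneg hK (by linarith)
    have b2 : 0 ≤ B * ε := mul_nonneg (by linarith) e0
    refine ⟨_, _, _, F u 0 * (starRingEnd ℂ) (F u 0) - G u 0 * (starRingEnd ℂ) (G u 0),
      by rw [add_neg_cancel, abs_zero]; exact hδ.le,
      ((hX u hu).mul hq hq1.le hq hq1 (hX u hu).conj).mono q3
        (by nlinarith [mul_nonneg hq hq]) (q2.trans_lt hq1) (by nlinarith [mul_self_nonneg E])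
        (by nlinarith [mul_self_nonneg C]) (by nlinarith), ?_, fun s hs =>
      tr_fin (two hF hF' u s hs) (two hG hG' u s hs) (by nlinarith)⟩
    rw [Complex.mul_conj, Complex.mul_conj, ← Complex.ofReal_sub, Complex.norm_real,
      Complex.normSq_eq_norm_sq, Complex.normSq_eq_norm_sq]
    exact a.le

end Vale.Agent.P321U
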