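import Mathlib

/-! A polynomial window. -/

open Finset

namespace Vale.Agent.P321U

namespace Win

theorem coef (k j : ℕ) : ∃ e : ℕ → ℝ, ∑ i ∈ range (k + j + 1), |e i| ≤ 2 ^ j ∧
    ∀ y : ℝ, ∑ i ∈ range (k + j + 1), e i * y ^ i = y ^ k * (1 - y) ^ j := by
  refine ⟨fun i => if k ≤ i then (-1) ^ (i - k) * (j.choose (i - k) : ℝ) else 0, ?_, fun y => ?_⟩
  · rw [add_assoc, sum_range_add, sum_eq_zero fun i hi => by
      simp only [if_neg (not_le.2 (mem_range.1 hi)), abs_zero]]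
    simp only [le_add_iff_nonneg_right, zero_le, if_true, add_tsub_cancel_left, abs_mul, abs_pow,
      abs_neg, abs_one, one_pow, one_mul, Nat.abs_cast, zero_add]
    exact_mod_cast (Nat.sum_range_choose j).le
  · rw [add_assoc, sum_range_add, sum_eq_zero fun i hi => by
      simp only [if_neg (not_le.2 (mem_range.1 hi)), zero_mul], sub_eq_neg_add, add_pow, mul_sum,
      zero_add]
    refine sum_congr rfl fun i _ => ?_
    simp only [if_pos (Nat.le_add_right k i), add_tsub_cancel_left, neg_pow y]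
    ring

theorem term {y z : ℝ} (hz : 0 ≤ z) (hzy : z ≤ y) {a b m : ℕ} (h : a + b = 2 * m) (hb : m ≤ b) :
    y ^ a * z ^ b ≤ (y * z) ^ m := by
  obtain ⟨c, rfl⟩ := Nat.exists_eq_add_of_le hb
  obtain rfl : m = a + c := by omega
  have h1 : z ^ c ≤ y ^ c := pow_le_pow_left₀ hz hzy c
  have h2 : 0 ≤ y ^ a * z ^ (a + c) := mul_nonneg (pow_nonneg (hz.trans hzy) _) (pow_nonneg hz _)
  calc _ = y ^ a * z ^ (a + c) * z ^ c := by ring
    _ ≤ y ^ a * z ^ (a + c) * y ^ c := mul_le_mul_of_nonneg_left h1 h2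
    _ = _ := by ring

theorem tail {m : ℕ} (s : Finset ℕ) (hs : s ⊆ range (2 * m + 1)) {t : ℕ → ℝ} {c : ℝ} (hc : 0 ≤ c)
    (hc1 : c ≤ 3 / 16) (h : ∀ k ∈ s, t k ≤ c ^ m) :
    ∑ k ∈ s, ((2 * m).choose k : ℝ) * t k ≤ (3 / 4) ^ m := by
  calc _ ≤ ∑ k ∈ s, ((2 * m).choose k : ℝ) * (3 / 16) ^ m := sum_le_sum fun k hk =>
        mul_le_mul_of_nonneg_left ((h k hk).trans (pow_le_pow_left₀ hc hc1 m)) (Nat.cast_nonneg _)
    _ ≤ ∑ k ∈ range (2 * m + 1), ((2 * m).choose k : ℝ) * (3 / 16) ^ m :=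
        sum_le_sum_of_subset_of_nonneg hs fun _ _ _ => by positivity
    _ = _ := by
        rw [← sum_mul, ← Nat.cast_sum, Nat.sum_range_choose, Nat.cast_pow, pow_mul, ← mul_pow]
        norm_num

end Win

open Win in
theorem win_ex (m : ℕ) : ∃ e : ℕ → ℝ, ∑ k ∈ range (2 * m + 1), |e k| ≤ 9 ^ m ∧
    ∀ y : ℝ, 0 ≤ y → y ≤ 1 → 0 ≤ ∑ k ∈ range (2 * m + 1), e k * y ^ k ∧
      ∑ k ∈ range (2 * m + 1), e k * y ^ k ≤ 1 ∧
      (3 / 4 ≤ y → ∑ k ∈ range (2 * m + 1), e k * y ^ k ≤ (3 / 4) ^ m) ∧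
      (y ≤ 1 / 4 → 1 - ∑ k ∈ range (2 * m + 1), e k * y ^ k ≤ (3 / 4) ^ m) := by
  choose e h1 h2 using coef
  have hs : range (m + 1) ⊆ range (2 * m + 1) := range_subset_range.2 (by omega)
  have e1 : ∀ k ∈ range (m + 1), k + (2 * m - k) = 2 * m := fun k hk => by
    have := mem_range.1 hk
    omega
  refine ⟨fun i => ∑ k ∈ range (m + 1), (2 * m).choose k * e k (2 * m - k) i, ?_, fun y y0 y1 => ?_⟩
  · calc _ ≤ ∑ i ∈ range (2 * m + 1), ∑ k ∈ range (m + 1),
          (2 * m).choose k * |e k (2 * m - k) i| := sum_le_sum fun i _ =>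
            (abs_sum_le_sum_abs _ _).trans (by simp only [abs_mul, Nat.abs_cast, le_refl])
      _ ≤ ∑ k ∈ range (m + 1), (1 : ℝ) ^ k * 2 ^ (2 * m - k) * (2 * m).choose k := by
          rw [sum_comm]
          refine sum_le_sum fun k hk => ?_
          have := h1 k (2 * m - k)
          rw [e1 k hk] at this
          rw [← mul_sum, one_pow, one_mul, mul_comm]
          exact mul_le_mul_of_nonneg_right this (Nat.cast_nonneg _)
      _ ≤ _ := by
          refine (sum_le_sum_of_subset_of_nonneg hs fun _ _ _ => by positivity).trans ?_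
          rw [← add_pow, pow_mul]
          norm_num
  have y2 := sub_nonneg.2 y1
  have h3 : ∑ i ∈ range (2 * m + 1), (∑ k ∈ range (m + 1),
      (2 * m).choose k * e k (2 * m - k) i) * y ^ i =
      ∑ k ∈ range (m + 1), ((2 * m).choose k : ℝ) * (y ^ k * (1 - y) ^ (2 * m - k)) := by
    simp only [sum_mul]
    rw [sum_comm]
    refine sum_congr rfl fun k hk => ?_
    rw [← h2, e1 k hk, mul_sum]
    simp only [mul_assoc]
  have h4 : ∑ k ∈ range (2 * m + 1) \ range (m + 1),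
      ((2 * m).choose k : ℝ) * (y ^ k * (1 - y) ^ (2 * m - k)) =
      1 - ∑ k ∈ range (m + 1), ((2 * m).choose k : ℝ) * (y ^ k * (1 - y) ^ (2 * m - k)) := by
    rw [sum_sdiff_eq_sub hs]
    simp only [mul_comm ((2 * m).choose _ : ℝ), ← add_pow]
    simp
  rw [h3]
  refine ⟨sum_nonneg fun _ _ => by positivity, ?_, fun h => ?_, fun h => ?_⟩
  · rw [← sub_nonneg, ← h4]
    exact sum_nonneg fun _ _ => by positivity
  · exact tail _ hs (mul_nonneg y0 y2) (by nlinarith) fun k hk =>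
      term y2 (by linarith) (e1 k hk) (by have := mem_range.1 hk; omega)
  · rw [← h4]
    refine tail _ sdiff_subset (mul_nonneg y2 y0) (by nlinarith) fun k hk => ?_
    have := mem_sdiff.1 hk
    simp only [mem_range] at this
    rw [mul_comm]
    exact term y0 (by linarith) (by omega) (by omega)

end Vale.Agent.P321U
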