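import Vale.Agent.P321U.Gen
import Vale.Agent.P321U.Win
import Vale.Agent.P321U.Fac
import Vale.Agent.P321U.Tri

open Finset Complex MeasureTheory

namespace Vale.Agent.P321U

theorem sa_inv {γ p N : ℝ} (hp : 0 < p) (hp1 : p ≤ 1) (hγ : Real.exp (-N) ≤ γ) :
    Real.exp (-(2 * N)) ≤ γ ^ 2 / p := by
  have hγ0 : 0 < γ := (Real.exp_pos _).trans_le hγ
  have h1 : Real.exp (-N) ^ 2 ≤ γ ^ 2 / p :=
    (pow_le_pow_left₀ (Real.exp_pos _).le hγ 2).trans (le_div_self (by positivity) hp hp1)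
  rwa [← Real.exp_nat_mul, Nat.cast_ofNat, mul_neg] at h1

theorem sa_exp (k : ℕ) {x : ℝ} (hx : k ≤ x) : (27 / 10 : ℝ) ^ k ≤ Real.exp x := by
  calc (27 / 10 : ℝ) ^ k ≤ Real.exp 1 ^ k := by gcongr; linarith [Real.exp_one_gt_d9]
    _ = Real.exp k := by rw [← Real.exp_nat_mul, mul_one]
    _ ≤ _ := Real.exp_le_exp.2 hx

theorem sa_q (m : ℕ) : (3 / 4 : ℝ) ^ m ≤ Real.exp (-(m / 4)) := by
  have h : (3 / 4 : ℝ) ≤ Real.exp (-(1 / 4)) := by linarith [Real.add_one_le_exp (-(1 / 4 : ℝ))]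
  calc (3 / 4 : ℝ) ^ m ≤ Real.exp (-(1 / 4)) ^ m := by gcongr
    _ = _ := by rw [← Real.exp_nat_mul]; congr 1; ring

/-- the window on the three ranges -/
theorem sa_win (m : ℕ) {L : ℕ} (hL : 0 < L) (d : ℕ) : ∃ e : ℕ → ℝ,
    ∑ k ∈ range (2 * m + 1), |e k| ≤ 9 ^ m ∧
    (∀ i, i < d → 0 ≤ win e m (1 / (4 * L)) d i ∧ win e m (1 / (4 * L)) d i ≤ 1) ∧
    (∀ i, i < d → d ≤ i + L → |win e m (1 / (4 * L)) d i| ≤ Real.exp (-(m / 4))) ∧
    ∀ i, i + 6 * L ≤ d → 1 - win e m (1 / (4 * L)) d i ≤ Real.exp (-(m / 4)) := by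
  obtain ⟨e, h1, h2⟩ := win_ex m
  have hL' : (0 : ℝ) < L := by exact_mod_cast hL
  have h3 : ∀ i, i ≤ d → Real.exp (-(1 / (4 * L) * ((d : ℝ) - i))) ≤ 1 := fun i hi => by
    have : (i : ℝ) ≤ d := by exact_mod_cast hi
    exact Real.exp_le_one_iff.2 (neg_nonpos.2 (mul_nonneg (by positivity) (by linarith)))
  refine ⟨e, h1, fun i hi => ?_, fun i hi hd => ?_, fun i hi => ?_⟩
  · have := h2 _ (Real.exp_pos _).le (h3 i hi.le)
    exact ⟨this.1, this.2.1⟩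
  · have h4 := h2 _ (Real.exp_pos _).le (h3 i hi.le)
    have h5 : (d : ℝ) ≤ i + L := by exact_mod_cast hd
    have h6 : 1 / (4 * L) * ((d : ℝ) - i) ≤ 1 / 4 := by
      rw [one_div_mul_eq_div, div_le_iff₀ (by positivity)]; linarith
    rw [win, abs_of_nonneg h4.1]
    exact (h4.2.2.1 (by linarith [Real.add_one_le_exp (-(1 / (4 * L) * ((d : ℝ) - i)))])).trans
      (sa_q m)
  · have h4 := h2 _ (Real.exp_pos _).le (h3 i (by omega))
    have h5 : (i : ℝ) + 6 * L ≤ d := by exact_mod_cast hi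
    have h6 : 3 / 2 ≤ 1 / (4 * L) * ((d : ℝ) - i) := by
      rw [one_div_mul_eq_div, le_div_iff₀ (by positivity)]; linarith
    refine (h4.2.2.2 ((Real.exp_le_exp.2 (neg_le_neg h6)).trans ?_)).trans (sa_q m)
    rw [Real.exp_neg, ← one_div]
    refine one_div_le_one_div_of_le (by norm_num) ?_
    have h7 := Real.add_one_le_exp (1 / 2 : ℝ)
    rw [show (3 / 2 : ℝ) = 1 + 1 / 2 by norm_num, Real.exp_add]
    nlinarith [Real.exp_one_gt_d9]

theorem sa_fin {g N A : ℝ} {m : ℕ} (hg : 0 < g) (hN : 1 ≤ N) (hA : N ≤ A) (hm : (m : ℝ) = 208 * A)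
    (h1 : 1 / g ≤ Real.exp (2 * N)) :
    Real.exp (-(1600 * A)) ≤ Real.exp (-(43 * A)) / (2 * (9 ^ m) ^ 3 * (4 / g) ^ 3) := by
  have h2 : ((9 : ℝ) ^ m) ^ 3 ≤ Real.exp (m * 7) := by
    rw [← pow_mul, mul_comm m, pow_mul, Real.exp_nat_mul]
    gcongr
    exact le_trans (by norm_num) (sa_exp 7 (by norm_num))
  have h3 : (4 / g) ^ 3 ≤ 64 * Real.exp (6 * N) := by
    calc (4 / g) ^ 3 = 64 * (1 / g) ^ 3 := by ring
      _ ≤ 64 * Real.exp (2 * N) ^ 3 := by gcongr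
      _ = _ := by rw [← Real.exp_nat_mul]; congr 2; push_cast; ring
  have h4 : 128 ≤ Real.exp (5 * N) := le_trans (by norm_num) (sa_exp 5 (by push_cast; linarith))
  rw [le_div_iff₀ (by positivity)]
  calc _ ≤ Real.exp (-(1600 * A)) * (2 * Real.exp (m * 7) * (64 * Real.exp (6 * N))) := by gcongr
    _ = Real.exp (-(1600 * A)) * Real.exp (m * 7) * Real.exp (6 * N) * 128 := by ring
    _ ≤ Real.exp (-(1600 * A)) * Real.exp (m * 7) * Real.exp (6 * N) * Real.exp (5 * N) := by gcongr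
    _ ≤ _ := by
      rw [← Real.exp_add, ← Real.exp_add, ← Real.exp_add]
      exact Real.exp_le_exp.2 (by linarith)

theorem sa_kap {g T N A : ℝ} (hN : 1 ≤ N) (hA : N ≤ A) (hT : T + g ≤ 1)
    (h1 : Real.exp (-(2 * N)) ≤ g) :
    448 * Real.exp (2 * N) * (T + g) * Real.exp (-(43 * A)) < Real.exp (-(8 * A)) ^ 4 * g := by
  have h4 : 448 < Real.exp (7 * N) :=
    lt_of_lt_of_le (by norm_num) (sa_exp 7 (by push_cast; linarith))
  calc _ ≤ 448 * Real.exp (2 * N) * 1 * Real.exp (-(43 * A)) := by gcongr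
    _ < Real.exp (7 * N) * Real.exp (2 * N) * 1 * Real.exp (-(43 * A)) := by gcongr
    _ ≤ Real.exp (-(8 * A)) ^ 4 * Real.exp (-(2 * N)) := by
      rw [mul_one, ← Real.exp_nat_mul, ← Real.exp_add, ← Real.exp_add, ← Real.exp_add]
      exact Real.exp_le_exp.2 (by push_cast; linarith)
    _ ≤ _ := by gcongr

theorem sa_eps {N A : ℝ} (hN : 1 ≤ N) (hA : N ≤ A) :
    12 * Real.exp (2 * N) ^ 2 * (Real.exp (-(52 * A)) * Real.exp (2 * N)) ≤
      Real.exp (-(43 * A)) := by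
  have h4 : 12 ≤ Real.exp (3 * N) := le_trans (by norm_num) (sa_exp 3 (by push_cast; linarith))
  calc _ ≤ Real.exp (3 * N) * Real.exp (2 * N) ^ 2 *
        (Real.exp (-(52 * A)) * Real.exp (2 * N)) := by gcongr
    _ ≤ _ := by
      rw [← Real.exp_nat_mul, ← Real.exp_add, ← Real.exp_add, ← Real.exp_add]
      exact Real.exp_le_exp.2 (by push_cast; linarith)

theorem step_a : ∃ M : ℕ, 1 ≤ M ∧ ∀ (X Y : ℕ → Bool) (q p γ : ℝ) (N L : ℕ) (ρ : ℕ → ℝ), 0 ≤ q →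
    0 < p → p ≤ 1 - q → γ ≤ p / 24000 → 1 ≤ N → Real.exp (-(N : ℝ)) ≤ γ → Inv X Y q γ N →
    (M * N : ℝ) ≤ 2 * (γ ^ 2 / p) * L → γ ^ 2 / p * L ≤ M * N → (∀ s, 0 ≤ ρ s) →
    ∑ s ∈ range (L + 1), ρ s = 1 →
    ∃ (f g : ℕ → ℂ) (c : ℕ) (a ξ : ℝ), (c : ℝ) ≤ Real.exp N ∧ 0 ≤ a ∧ |ξ| ≤ γ ^ 2 / p ∧
      Pr X Y (q ^ 3) 1 f g ∧ Dec (fun j => f j - g j) c (γ ^ 2 / p) (Real.exp (5 * N)) ∧
      Real.exp (-(1600 * M * N)) ≤ ‖tst ρ L a ξ (fun j => f j - g j) (c + 7 * L)‖ := by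
  obtain ⟨M, hM, H⟩ := gen
  refine ⟨M, hM, fun X Y q p γ N L ρ hq hp hpq hγp hN hγ hI hL1 hL2 hρ0 hρ1 => ?_⟩
  obtain ⟨f, f', c, hP, hc, hD, hLow⟩ := hI
  have hγ0 : 0 < γ := (Real.exp_pos _).trans_le hγ
  have hp1 : p ≤ 1 := by linarith
  have hM1 : (1 : ℝ) ≤ M := by exact_mod_cast hM
  have hN1 : (1 : ℝ) ≤ N := by exact_mod_cast hN
  have hMN : (N : ℝ) ≤ M * N := le_mul_of_one_le_left (by linarith) hM1
  have hg2 := sa_inv hp hp1 hγ
  have hg0 : 0 < γ ^ 2 / p := by positivity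
  have hg1 : γ ^ 2 / p ≤ γ / 24000 := by
    rw [div_le_iff₀ hp]; nlinarith
  have hg3 : γ ^ 2 ≤ (1 - q) * (γ ^ 2 / p) := by
    calc γ ^ 2 = p * (γ ^ 2 / p) := by field_simp
      _ ≤ _ := by gcongr
  generalize γ ^ 2 / p = g at *
  have hg4 : 1 / g ≤ Real.exp (2 * N) := by
    rw [Real.exp_neg, ← one_div] at hg2
    exact (one_div_le (Real.exp_pos _) hg0).1 hg2
  have hf := fun j => hP.norm_le hq (by linarith) j
  have h2 : ∀ j, ‖f j - f' j‖ ≤ 2 := fun j => by linarith [norm_sub_le (f j) (f' j), hf j]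
  obtain ⟨Δ, hΔ, hbad⟩ := H _ c γ g N hN1 hγ (by linarith) hg0.le hg1 hc h2 hD hLow
  have hL0 : (0 : ℝ) < L := by
    by_contra h
    have := mul_le_mul_of_nonneg_left (not_lt.1 h) (show 0 ≤ 2 * g by positivity)
    linarith
  have hΔL : Δ ≤ L := by
    have h3 := mul_le_mul_of_nonneg_right hg1 hL0.le
    have h4 : γ * Δ ≤ γ * L := by nlinarith
    exact_mod_cast le_of_mul_le_mul_left h4 hγ0
  obtain ⟨m, hm⟩ : ∃ m : ℕ, (m : ℝ) = 208 * (M * N) := ⟨208 * (M * N), by push_cast; ring⟩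
  obtain ⟨e, he, hw1, hw2, hw3⟩ := sa_win m (Nat.cast_pos.1 hL0) (c + 7 * L)
  have hm4 : (m : ℝ) / 4 = 52 * (M * N) := by rw [hm]; ring
  rw [hm4] at hw2 hw3
  have hw4 : ∀ i, i < c + 7 * L → |win e m (1 / (4 * L)) (c + 7 * L) i| ≤ 1 := fun i hi => by
    rw [abs_of_nonneg (hw1 i hi).1]; exact (hw1 i hi).2
  have hb := hbad (c + 7 * L) _ (by omega) hw1 fun j hj =>
    (hw3 j (by omega)).trans (Real.exp_le_exp.2 (by linarith))
  have hβ : g + 2 * m * (1 / (4 * L)) ≤ 1 - q := by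
    have : 2 * m * (1 / (4 * L : ℝ)) ≤ 208 * g := by
      rw [mul_one_div, div_le_iff₀ (by positivity), hm]; linarith
    linarith
  have hl := l1_exp h2 hD hN1 hc hγ hg0.le (by linarith)
  have hnear : ∀ {φ : ℕ → ℂ}, (∀ j, ‖φ j‖ ≤ 1) → ∀ (u : ℝ) (s : ℕ), s ≤ L →
      ‖Fs e m (1 / (4 * L)) (c + 7 * L) g φ u s - Fs e m (1 / (4 * L)) (c + 7 * L) g φ u 0‖ ≤
        Real.exp (-(52 * (M * N))) * Real.exp (2 * N) := fun hφ u s hs => by
    refine (fac_near hφ hg0 (Real.exp_pos _).le hw2 hs).trans ?_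
    rw [div_eq_mul_one_div]
    gcongr
  have hC1 : 1 ≤ 4 / g := by rw [le_div_iff₀ hg0]; linarith
  obtain ⟨P, Q, ξ, c0, hξ, hX, h0, hn⟩ := tri (X := X) (Y := Y) (c := c) (d := c + 7 * L) (L := L)
    (γ := g) (E := 9 ^ m) (C := 4 / g) (K := Real.exp (5 * N)) (T := γ / 12000) (δ := g)
    (σ := Real.exp (-(8 * (M * N)))) (B := Real.exp (2 * N)) (κ := Real.exp (-(43 * (M * N))))
    (F := Fs e m (1 / (4 * L)) (c + 7 * L) g f) (G := Fs e m (1 / (4 * L)) (c + 7 * L) g f')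
    hq (by linarith) (by positivity) hg0 (Real.exp_pos _)
    (Real.exp_le_one_iff.2 (by linarith)) (Real.one_le_exp (by linarith))
    (one_le_pow₀ (by norm_num)) hC1 (Real.exp_pos _).le
    (fun u hu => fac_xp hq hP hg0 (by positivity) hβ (by
      have := pow_le_pow_left₀ (abs_nonneg _) hu 2
      rw [sq_abs] at this
      nlinarith [sq_nonneg γ]) he hl)
    (fun u s => (fac_bd (fun j => (hf j).1) hg0 hw4 s).trans hg4)
    (fun u s => (fac_bd (fun j => (hf j).2) hg0 hw4 s).trans hg4)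
    (hnear fun j => (hf j).1) (hnear fun j => (hf j).2)
    (by
      refine le_trans (measureReal_mono (fun u hu => ?_) ?_) (hb.trans (le_of_eq (by ring)))
      · refine ⟨hu.1.trans (le_of_eq (by ring)), ?_⟩
        have h3 := hu.2
        rw [fac_sub f f' e m c] at h3
        by_contra h4
        have h5 : Real.exp (-(8 * (M * N))) ≤
            Real.exp (((c : ℝ) - (c + 7 * L : ℕ)) * g) * Real.exp (-(M * N)) := by
          rw [← Real.exp_add]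
          exact Real.exp_le_exp.2 (by push_cast; linarith)
        exact h3.not_ge (h5.trans (mul_le_mul_of_nonneg_left (not_lt.1 h4) (Real.exp_pos _).le))
      · exact ((measure_mono fun u hu => abs_le.1 hu.1).trans_lt
          (measure_Icc_lt_top (a := -(γ / 6000)) (b := γ / 6000))).ne)
    (sa_kap hN1 hMN (by linarith) hg2) (sa_eps hN1 hMN)
  obtain ⟨φ, ψ, a, ha, hP', hD', hT⟩ := hX.extract (by positivity) (by positivity) (Real.exp_pos _)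
    hρ0 hρ1 (by omega) h0 hn
  refine ⟨φ, ψ, c, a, ξ, hc, ha, hξ, hP', fun j => (hD' j).trans ?_, le_trans ?_ hT⟩
  · refine mul_le_mul_of_nonneg_right ?_ (Real.exp_pos _).le
    rw [div_le_iff₀ (by positivity)]
    have h3 : 3 ≤ 4 / g := by rw [le_div_iff₀ hg0]; linarith
    calc _ = Real.exp (5 * N) * (4 / g) ^ 2 * 3 := by ring
      _ ≤ Real.exp (5 * N) * (4 / g) ^ 2 * (4 / g) := by gcongr
      _ = _ := by ring
  · rw [mul_assoc]
    exact sa_fin hg0 hN1 hMN hm hg4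

end Vale.Agent.P321U
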