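import Vale.Agent.P321U.Iter

open Finset

namespace Vale.Agent.P321U

open Vale.Agent.P321

theorem unif_num {x p A N : ℝ} {n c : ℕ} (hx : 2 ≤ x ^ 8) (hx1 : 1 ≤ x) (hp : 0 < p) (hp1 : p ≤ 1)
    (hn : (n : ℝ) = Real.exp x) (hA : A ≤ x ^ c) (hN0 : 0 ≤ N) (hN : N ≤ x ^ 200 / p) :
    64 * (n + 2) / Real.exp (-(A * N)) ^ 2 + 1 ≤ Real.exp (x ^ (c + 240) / p) := by
  have h1 : A * N ≤ x ^ (c + 200) / p := by
    rw [pow_add, mul_div_assoc]
    exact mul_le_mul hA hN hN0 (by positivity)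
  have h2 : x ≤ x ^ (c + 200) / p := by
    rw [le_div_iff₀ hp]
    have := le_self_pow₀ hx1 (show c + 200 ≠ 0 by omega)
    nlinarith
  have h3 : 32 * (x ^ (c + 200) / p) ≤ x ^ (c + 240) / p := by
    rw [show c + 240 = 8 * 5 + (c + 200) by ring, pow_add x (8 * 5), pow_mul, mul_div_assoc]
    refine mul_le_mul_of_nonneg_right ?_ (by positivity)
    exact le_trans (by norm_num) (pow_le_pow_left₀ zero_le_two hx 5)
  set z := x ^ (c + 200) / p
  have h4 : 64 * (n + 2) / Real.exp (-(A * N)) ^ 2 = 64 * (n + 2) * Real.exp (2 * (A * N)) := by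
    rw [← Real.exp_nat_mul, div_eq_mul_inv, ← Real.exp_neg]
    congr 2
    push_cast
    ring
  have h5 : Real.exp (2 * (A * N)) ≤ Real.exp (2 * z) := Real.exp_le_exp.2 (by linarith)
  have h6 : 2 ≤ Real.exp x := by linarith [Real.add_one_le_exp x]
  have h7 : Real.exp x ≤ Real.exp z := Real.exp_le_exp.2 h2
  have h8 : 1 ≤ Real.exp (2 * z) := Real.one_le_exp (by linarith)
  have h9 : 129 ≤ Real.exp (29 * z) := by
    have := Real.quadratic_le_exp_of_nonneg (x := 29 * z) (by linarith)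
    nlinarith
  have h10 : Real.exp (32 * z) = Real.exp (29 * z) * (Real.exp z * Real.exp (2 * z)) := by
    rw [← Real.exp_add, ← Real.exp_add]
    ring_nf
  have h11 : 64 * ((n : ℝ) + 2) * Real.exp (2 * (A * N)) ≤ 128 * Real.exp z * Real.exp (2 * z) :=
    mul_le_mul (by linarith) h5 (Real.exp_pos _).le (by positivity)
  have h12 : 1 ≤ Real.exp z * Real.exp (2 * z) := one_le_mul_of_one_le_of_one_le (by linarith) h8
  refine le_trans ?_ (Real.exp_le_exp.2 h3)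
  rw [h4, h10]
  nlinarith

theorem upper_unif : ∃ C : ℝ, ∀ q : ℝ, 0 ≤ q → q < 1 → ∀ n : ℕ, 3 ≤ n →
    (∃ m, Reconstructs q n m) ∧
      (sampleComplexity q n : ℝ) ≤ Real.exp (Real.log n ^ C / (1 - q)) := by
  obtain ⟨C, hC, h⟩ := gap
  refine ⟨(17 * C + 240 : ℕ), fun q hq hq1 n hn => ?_⟩
  rw [Real.rpow_natCast]
  set x := Real.log n with hxd
  set l := Nat.log 2 (Nat.log 2 n) with hl
  have hn0 : (3 : ℝ) ≤ n := by exact_mod_cast hn
  have hnx : (n : ℝ) = Real.exp x := (Real.exp_log (by linarith)).symm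
  have hx1 : 1.095 ≤ x := by
    rw [hxd, Real.le_log_iff_exp_le (by linarith)]
    refine le_trans ?_ hn0
    rw [show (1.095 : ℝ) = 1 + 0.095 by norm_num, Real.exp_add]
    have h1 := Real.exp_one_lt_d9
    have h3 := Real.exp_bound' (x := 0.095) (by norm_num) (by norm_num) (n := 2) (by norm_num)
    simp only [sum_range_succ, range_zero, sum_empty] at h3
    norm_num [Nat.factorial] at h3 ⊢
    nlinarith [Real.exp_pos (19 / 200 : ℝ)]
  have hx : 2 ≤ x ^ 8 := le_trans (by norm_num) (pow_le_pow_left₀ (by norm_num) hx1 8)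
  have hx0 : 1 ≤ x := by linarith
  have hnl : n ≤ 2 ^ 2 ^ (l + 1) :=
    (Nat.lt_pow_succ_log_self one_lt_two n).le.trans
      (Nat.pow_le_pow_right two_pos (Nat.lt_pow_succ_log_self one_lt_two _))
  have h2l : (2 : ℝ) ^ (l + 1) ≤ x ^ 17 := by
    have a1 : Nat.log 2 n ≠ 0 := (Nat.log_pos one_lt_two (by omega)).ne'
    have a2 : (2 : ℝ) ^ l ≤ Nat.log 2 n := by exact_mod_cast Nat.pow_log_le_self 2 a1
    have a3 : (2 : ℝ) ^ Nat.log 2 n ≤ n := by exact_mod_cast Nat.pow_log_le_self 2 (by omega : n ≠ 0)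
    have a4 := Real.log_le_log (by positivity) a3
    rw [Real.log_pow] at a4
    have a5 := Real.log_two_gt_d9
    have a6 : (0 : ℝ) ≤ Nat.log 2 n := Nat.cast_nonneg _
    have a7 : (2 : ℝ) ^ l ≤ 2 * x := by nlinarith
    calc (2 : ℝ) ^ (l + 1) = 2 * 2 ^ l := pow_succ' _ _
      _ ≤ 2 * (2 * x) := by linarith
      _ ≤ x ^ 8 * (x ^ 8 * x) := by gcongr
      _ = _ := by ring
  have hb : ∀ (b : ℝ) (c : ℕ), 0 ≤ b → b ≤ 2 ^ c → b ^ (l + 1) ≤ x ^ (17 * c) := fun b c h0 h1 => by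
    calc b ^ (l + 1) ≤ (2 ^ c) ^ (l + 1) := pow_le_pow_left₀ h0 h1 _
      _ = (2 ^ (l + 1)) ^ c := by rw [← pow_mul, ← pow_mul, mul_comm]
      _ ≤ (x ^ 17) ^ c := pow_le_pow_left₀ (by positivity) h2l _
      _ = _ := by rw [← pow_mul]
  have hp : 0 < 1 - q := by linarith
  have h3 : (1 : ℝ) ≤ 3 ^ (l + 1) := one_le_pow₀ (by norm_num)
  set p0 := (1 - q) / 3 ^ (l + 1) with hp0
  have hp1 : 0 < p0 := by positivity
  have hp2 : p0 ≤ 1 := (div_le_one (by positivity)).2 (by linarith)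
  have hqq : q ≤ (1 - p0) ^ 3 ^ (l + 1) := by
    have := one_add_mul_le_pow (a := -p0) (by linarith) (3 ^ (l + 1))
    rw [← sub_eq_add_neg, Nat.cast_pow, Nat.cast_ofNat, mul_neg, hp0,
      mul_div_cancel₀ _ (by positivity)] at this
    rw [hp0]
    linarith
  have hq2 : (1 - p0) ^ 3 ^ (l + 1) < 1 := pow_lt_one₀ (by linarith) (by linarith) (by positivity)
  set N := ⌈240000 * Real.log (n + 2) / p0⌉₊ with hN
  have hg := h (1 - p0) n l N (by linarith) (by linarith) hnl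
    (by rw [sub_sub_cancel]; exact Nat.le_ceil _)
  have hg' : ∀ x y : Fin n → Bool, x ≠ y → ∃ f, Rl q 1 f ∧
      Real.exp (-(C ^ (l + 1) * N : ℝ)) ≤ ‖f (List.ofFn x) - f (List.ofFn y)‖ := fun x y hxy =>
    (hg x y hxy).imp fun f hf => ⟨hf.1.of_le hq hqq hq2, hf.2⟩
  have ht : Real.exp (-(C ^ (l + 1) * N : ℝ)) ≤ 8 :=
    (Real.exp_le_one_iff.2 (neg_nonpos.2 (by positivity))).trans (by norm_num)
  refine ⟨⟨_, reconstructs hq hq1.le (Real.exp_pos _) ht hg' (Nat.le_ceil _)⟩,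
    (sample_le hq hq1.le (Real.exp_pos _) ht hg').trans (unif_num hx hx0 hp (by linarith) hnx
      (hb C C (by positivity) (by exact_mod_cast Nat.lt_two_pow_self.le)) (by positivity) ?_)⟩
  have a1 : Real.log (n + 2) ≤ 2 * x := by
    rw [hxd, ← Nat.cast_ofNat (n := 2), ← Real.log_pow]
    exact Real.log_le_log (by positivity) (by push_cast; nlinarith)
  have a2 := hb 3 2 (by norm_num) (by norm_num)
  have a3 : 0 ≤ Real.log (n + 2) := Real.log_nonneg (by linarith)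
  have a4 : (N : ℝ) ≤ 240000 * Real.log (n + 2) / p0 + 1 := (Nat.ceil_lt_add_one (by positivity)).le
  have a5 : (2 : ℝ) ^ 20 ≤ x ^ 160 := by
    rw [show 160 = 8 * 20 by rfl, pow_mul]
    exact pow_le_pow_left₀ zero_le_two hx 20
  have a6 : x ^ 35 ≤ x ^ 40 := pow_le_pow_right₀ hx0 (by norm_num)
  have a7 : 1 ≤ x ^ 40 := one_le_pow₀ hx0
  have a8 : Real.log (n + 2) * 3 ^ (l + 1) ≤ 2 * x ^ 35 := by
    calc _ ≤ 2 * x * x ^ (17 * 2) := mul_le_mul a1 a2 (by positivity) (by positivity)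
      _ = _ := by ring
  refine a4.trans ?_
  rw [hp0, div_div_eq_mul_div, le_div_iff₀ hp, add_mul, div_mul_cancel₀ _ hp.ne',
    show 200 = 160 + 40 by rfl, pow_add x, mul_assoc]
  have a9 := mul_le_mul_of_nonneg_right a5 (zero_le_one.trans a7)
  linarith

end Vale.Agent.P321U
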