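import Vale.Agent.P321U.Iter

open Finset Complex MeasureTheory

namespace Vale.Agent.P321U

open Vale.Agent.P321

theorem up_clog {x : ℕ} (hx : 1 ≤ x) : 2 ^ Nat.clog 2 x ≤ 2 * x := by
  rcases hx.eq_or_lt with rfl | h
  · simp
  · have h1 := Nat.pow_pred_clog_lt_self one_lt_two h
    have h2 := Nat.clog_pos one_lt_two h
    obtain ⟨k, hk⟩ : ∃ k, Nat.clog 2 x = k + 1 := ⟨_, (Nat.succ_pred_eq_of_pos h2).symm⟩
    rw [hk] at h1 ⊢
    rw [Nat.pred_succ] at h1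
    rw [pow_succ]; omega

theorem up_l {n : ℕ} (hn : 2 ≤ n) (hL : 1 ≤ Real.log n) :
    ∃ l : ℕ, n ≤ 2 ^ 2 ^ (l + 1) ∧ (2:ℝ) ^ (l + 1) ≤ 10 * Real.log n := by
  refine ⟨Nat.clog 2 (Nat.clog 2 n), ?_, ?_⟩
  · refine (Nat.le_pow_clog one_lt_two n).trans (Nat.pow_le_pow_right two_pos ?_)
    exact (Nat.le_pow_clog one_lt_two _).trans (Nat.pow_le_pow_right two_pos (Nat.le_succ _))
  · have h1 : (2:ℝ) ^ Nat.clog 2 (Nat.clog 2 n) ≤ 2 * (Nat.clog 2 n : ℕ) := by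
      exact_mod_cast up_clog (Nat.clog_pos one_lt_two (show 1 < n by omega))
    have h2 : (2:ℝ) ^ Nat.clog 2 n ≤ 2 * n := by exact_mod_cast up_clog (show 1 ≤ n by omega)
    have hn0 : (0:ℝ) < n := by exact_mod_cast (show 0 < n by omega)
    have h3 := Real.log_le_log (by positivity) h2
    rw [Real.log_pow, Real.log_mul two_ne_zero hn0.ne'] at h3
    have h4 := Real.log_two_gt_d9
    have h5 := Real.log_two_lt_d9
    have h6 : (0:ℝ) ≤ (Nat.clog 2 n : ℕ) := Nat.cast_nonneg _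
    rw [pow_succ]
    nlinarith

theorem up_root {q : ℝ} (hq : 0 < q) (hq1 : q < 1) {k : ℕ} (hk : k ≠ 0) :
    ∃ q0 : ℝ, 0 ≤ q0 ∧ q0 < 1 ∧ q0 ^ k = q ∧ 1 - q ≤ k * (1 - q0) := by
  have h1 : (q ^ (k:ℝ)⁻¹) ^ k = q := Real.rpow_inv_natCast_pow hq.le hk
  have h0 : 0 ≤ q ^ (k:ℝ)⁻¹ := Real.rpow_nonneg hq.le _
  refine ⟨q ^ (k:ℝ)⁻¹, h0, Real.rpow_lt_one hq.le hq1 (by positivity), h1, ?_⟩
  have h2 := one_add_mul_le_pow (a := q ^ (k:ℝ)⁻¹ - 1) (by linarith) k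
  rw [add_sub_cancel, h1] at h2
  linarith

theorem upper : ∃ C : ℝ, ∀ q : ℝ, 0 < q → q < 1 → ∀ᶠ n : ℕ in Filter.atTop,
    (∃ m, Reconstructs q n m) ∧ (sampleComplexity q n : ℝ) ≤ Real.exp (Real.log n ^ C) := by
  obtain ⟨C, hC, hg⟩ := gap
  refine ⟨((C + 4 : ℕ) : ℝ), fun q hq hq1 => ?_⟩
  have hp : 0 < 1 - q := by linarith
  obtain ⟨K, hK⟩ : ∃ K : ℝ, K = 48000000 / (1 - q) + 1 := ⟨_, rfl⟩
  have hK0 : 0 < K := by rw [hK]; positivity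
  have hlog : Filter.Tendsto (fun n : ℕ => Real.log n) Filter.atTop Filter.atTop :=
    Real.tendsto_log_atTop.comp tendsto_natCast_atTop_atTop
  filter_upwards [Filter.eventually_ge_atTop 2, hlog.eventually_ge_atTop (66 + 2 * (10 ^ C * K))]
    with n hn hLg
  have hB0 : (0:ℝ) ≤ 10 ^ C * K := by positivity
  have hL1 : 1 ≤ Real.log n := by linarith
  obtain ⟨l, hl1, hl2⟩ := up_l hn hL1
  obtain ⟨q0, h0, h1, h2, h3⟩ := up_root hq hq1 (k := 3 ^ (l + 1)) (by positivity)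
  have hn2 : (2:ℝ) ≤ n := by exact_mod_cast hn
  have hl3 : Real.log (n + 2) ≤ 2 * Real.log n := by
    have : Real.log ((n:ℝ) ^ 2) = 2 * Real.log n := by rw [Real.log_pow]; norm_num
    rw [← this]
    exact Real.log_le_log (by positivity) (by nlinarith)
  have hl0 : 0 ≤ Real.log (n + 2) := Real.log_nonneg (by linarith)
  obtain ⟨N, hN⟩ : ∃ N : ℕ, N = ⌈240000 * Real.log (n + 2) / (1 - q0)⌉₊ := ⟨_, rfl⟩
  have ht := hg q0 n l N h0 h1 hl1 (hN ▸ Nat.le_ceil _)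
  rw [h2] at ht
  have hE0 : (0:ℝ) ≤ C ^ (l + 1) * N := by positivity
  have hτ : Real.exp (-(C ^ (l + 1) * N : ℝ)) ≤ 8 :=
    (Real.exp_le_one_iff.2 (neg_nonpos.2 hE0)).trans (by norm_num)
  refine ⟨⟨_, reconstructs hq.le hq1.le (Real.exp_pos _) hτ ht (Nat.le_ceil _)⟩,
    (sample_le hq.le hq1.le (Real.exp_pos _) hτ ht).trans ?_⟩
  set L := Real.log n with hLdef
  have hk : ((3 ^ (l + 1) : ℕ) : ℝ) ≤ 100 * L ^ 2 := by
    have a1 : ((3 ^ (l + 1) : ℕ) : ℝ) ≤ ((2:ℝ) ^ (l + 1)) ^ 2 := by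
      rw [← pow_mul, mul_comm, pow_mul]; push_cast
      exact pow_le_pow_left₀ (by norm_num) (by norm_num) _
    have a2 : ((2:ℝ) ^ (l + 1)) ^ 2 ≤ (10 * L) ^ 2 := by gcongr
    linarith
  have hp0 : 0 < 1 - q0 := by linarith
  have hL3 : 1 ≤ L ^ 3 := one_le_pow₀ hL1
  have hNle : (N:ℝ) ≤ K * L ^ 3 := by
    have a1 : (N:ℝ) ≤ 240000 * Real.log (n + 2) / (1 - q0) + 1 := by
      rw [hN]; exact (Nat.ceil_lt_add_one (by positivity)).le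
    have a2 : 240000 * Real.log (n + 2) / (1 - q0) ≤ 48000000 / (1 - q) * L ^ 3 := by
      rw [div_mul_eq_mul_div, div_le_div_iff₀ hp0 hp]
      have a3 : 1 - q ≤ 100 * L ^ 2 * (1 - q0) := h3.trans (by gcongr)
      calc 240000 * Real.log (n + 2) * (1 - q)
          ≤ 240000 * (2 * L) * (100 * L ^ 2 * (1 - q0)) := by gcongr
        _ = _ := by ring
    rw [hK, add_mul]; linarith
  have hCl : (C:ℝ) ^ (l + 1) ≤ 10 ^ C * L ^ C := by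
    have a1 : (C:ℝ) ≤ 2 ^ C := by exact_mod_cast (Nat.lt_two_pow_self (n := C)).le
    calc (C:ℝ) ^ (l + 1) ≤ (2 ^ C) ^ (l + 1) := by gcongr
      _ = (2 ^ (l + 1)) ^ C := by rw [← pow_mul, mul_comm, pow_mul]
      _ ≤ (10 * L) ^ C := by gcongr
      _ = _ := mul_pow _ _ _
  have hE : (C:ℝ) ^ (l + 1) * N ≤ 10 ^ C * K * L ^ (C + 3) := by
    calc (C:ℝ) ^ (l + 1) * N ≤ 10 ^ C * L ^ C * (K * L ^ 3) := by gcongr
      _ = _ := by ring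
  have hLp : L ≤ L ^ (C + 3) := le_self_pow₀ hL1 (by omega)
  have hfin : 64 + 2 * L + 2 * ((C:ℝ) ^ (l + 1) * N) ≤ L ^ (C + 4) := by
    have : (66 + 2 * (10 ^ C * K)) * L ^ (C + 3) ≤ L * L ^ (C + 3) := by gcongr
    rw [show L ^ (C + 4) = L * L ^ (C + 3) by ring]
    nlinarith
  rw [Real.rpow_natCast]
  refine le_trans ?_ (Real.exp_le_exp.2 hfin)
  have b1 : (n:ℝ) + 2 ≤ Real.exp (2 * L) := by
    rw [← Real.exp_log (show (0:ℝ) < n + 2 by positivity)]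
    exact Real.exp_le_exp.2 hl3
  have b2 : (65:ℝ) ≤ Real.exp 64 := by linarith [Real.add_one_le_exp 64]
  have b3 : 1 ≤ Real.exp (2 * ((C:ℝ) ^ (l + 1) * N)) := Real.one_le_exp (by positivity)
  have b4 : 64 * ((n:ℝ) + 2) / Real.exp (-(C ^ (l + 1) * N : ℝ)) ^ 2 =
      64 * (((n:ℝ) + 2) * Real.exp (2 * ((C:ℝ) ^ (l + 1) * N))) := by
    rw [← Real.exp_nat_mul, div_eq_mul_inv, ← Real.exp_neg]; push_cast; ring_nf
  rw [b4, Real.exp_add, Real.exp_add]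
  have b5 : 1 ≤ ((n:ℝ) + 2) * Real.exp (2 * ((C:ℝ) ^ (l + 1) * N)) := by nlinarith
  calc 64 * (((n:ℝ) + 2) * Real.exp (2 * ((C:ℝ) ^ (l + 1) * N))) + 1
      ≤ 65 * (((n:ℝ) + 2) * Real.exp (2 * ((C:ℝ) ^ (l + 1) * N))) := by linarith
    _ ≤ Real.exp 64 * (Real.exp (2 * L) * Real.exp (2 * ((C:ℝ) ^ (l + 1) * N))) := by gcongr
    _ = _ := by ring

end Vale.Agent.P321U
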