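import Vale.Agent.P321U.Pr

open Finset Complex MeasureTheory

namespace Vale.Agent.P321U

variable {X Y : ℕ → Bool} {c d : ℕ} {q γ E C K ξ : ℝ} {P Q : ℕ → ℂ}

theorem xp_exp (a a' ξ ξ' : ℝ) : cexp (-((a + a' : ℝ) : ℂ) + (ξ + ξ' : ℝ) * I) =
    cexp (-(a : ℂ) + ξ * I) * cexp (-(a' : ℂ) + ξ' * I) := by
  rw [← Complex.exp_add]
  push_cast
  ring_nf

theorem xp_conj (a ξ : ℝ) :
    (starRingEnd ℂ) (cexp (-(a : ℂ) + ξ * I)) = cexp (-(a : ℂ) + (-ξ : ℝ) * I) := by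
  rw [← Complex.exp_conj]
  simp

theorem Xp.mul {q₁ q₂ E' C' K' ξ' : ℝ} {P' Q' : ℕ → ℂ} (h1 : 0 ≤ q₁) (h1' : q₁ ≤ 1) (h2 : 0 ≤ q₂)
    (h2' : q₂ < 1) (h : Xp X Y q₁ c d γ E C K ξ P Q) (h' : Xp X Y q₂ c d γ E' C' K' ξ' P' Q') :
    Xp X Y (q₁ * q₂) c d γ (E * E') (C * C') (K * C' + C * K') (ξ + ξ') (fun s => P s * P' s)
      fun s => Q s * Q' s := by
  obtain ⟨ι, S, e, a, φ, ψ, a1, a2, a3⟩ := h
  obtain ⟨ι', S', e', a', φ', ψ', b1, b2, b3⟩ := h'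
  refine ⟨ι × ι', S ×ˢ S', fun k => e k.1 * e' k.2, fun k => a k.1 + a' k.2,
    fun k j => φ k.1 j * φ' k.2 j, fun k j => ψ k.1 j * ψ' k.2 j, ?_, fun k hk => ?_,
    fun s hs => ?_⟩
  · simp only [norm_mul, sum_product, ← sum_mul_sum]
    exact mul_le_mul a1 b1 (sum_nonneg fun _ _ => norm_nonneg _)
      ((sum_nonneg fun _ _ => norm_nonneg _).trans a1)
  · obtain ⟨c1, c2, c3⟩ := a2 _ (mem_product.1 hk).1
    obtain ⟨d1, d2, d3⟩ := b2 _ (mem_product.1 hk).2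
    refine ⟨add_nonneg c1 d1, c2.mul h1 h1' h2 h2' d2, fun j => ?_⟩
    have e1 : φ k.1 j * φ' k.2 j - ψ k.1 j * ψ' k.2 j =
        (φ k.1 j - ψ k.1 j) * φ' k.2 j + ψ k.1 j * (φ' k.2 j - ψ' k.2 j) := by ring
    have e2 := mul_le_mul (c3 j) (d2.norm_le h2 h2'.le j).1 (norm_nonneg _)
      ((norm_nonneg _).trans (c3 j))
    have e3 := mul_le_mul (c2.norm_le h1 h1' j).2 (d3 j) (norm_nonneg _) c2.nonneg
    simp only [e1]
    refine (norm_add_le _ _).trans ?_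
    rw [norm_mul, norm_mul]
    linarith
  · simp only [(a3 s hs).1, (a3 s hs).2, (b3 s hs).1, (b3 s hs).2, sum_mul_sum, sum_product,
      xp_exp, mul_pow]
    constructor <;> exact sum_congr rfl fun _ _ => sum_congr rfl fun _ _ => by ring

theorem Xp.conj (h : Xp X Y q c d γ E C K ξ P Q) :
    Xp X Y q c d γ E C K (-ξ) (fun s => (starRingEnd ℂ) (P s)) fun s => (starRingEnd ℂ) (Q s) := by
  obtain ⟨ι, S, e, a, φ, ψ, a1, a2, a3⟩ := h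
  refine ⟨ι, S, fun k => (starRingEnd ℂ) (e k), a, fun k j => (starRingEnd ℂ) (φ k j),
    fun k j => (starRingEnd ℂ) (ψ k j), by simpa using a1,
    fun k hk => ⟨(a2 k hk).1, (a2 k hk).2.1.conj, fun j => ?_⟩, fun s hs => ?_⟩
  · simp only [← map_sub, Complex.norm_conj]
    exact (a2 k hk).2.2 j
  · simp only [(a3 s hs).1, (a3 s hs).2, map_sum, map_mul, map_pow, xp_conj, and_self]

theorem Xp.mono {q' E' C' K' : ℝ} (h0 : 0 ≤ q') (hq : q' ≤ q) (hq1 : q < 1) (hE : E ≤ E')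
    (hC : C ≤ C') (hK : K ≤ K') (h : Xp X Y q c d γ E C K ξ P Q) :
    Xp X Y q' c d γ E' C' K' ξ P Q := by
  obtain ⟨ι, S, e, a, φ, ψ, a1, a2, a3⟩ := h
  exact ⟨ι, S, e, a, φ, ψ, a1.trans hE, fun k hk => ⟨(a2 k hk).1,
    ((a2 k hk).2.1.of_le h0 hq hq1).mono hC, fun j => ((a2 k hk).2.2 j).trans
      (mul_le_mul_of_nonneg_right hK (Real.exp_pos _).le)⟩, a3⟩

theorem Xp.extract {L : ℕ} {κ : ℝ} {c0 : ℂ} {ρ : ℕ → ℝ} (h : Xp X Y q c d γ E C K ξ P Q)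
    (hE : 0 < E) (hC : 0 < C) (hκ : 0 < κ) (hρ : ∀ s, 0 ≤ ρ s)
    (h1 : ∑ s ∈ range (L + 1), ρ s = 1) (hL : L ≤ d) (h0 : κ ≤ ‖c0‖)
    (hn : ∀ s, s ≤ L → ‖P s - Q s - c0‖ ≤ κ / 2) :
    ∃ (f g : ℕ → ℂ) (a : ℝ), 0 ≤ a ∧ Pr X Y q 1 f g ∧ Dec (fun j => f j - g j) c γ (K / C) ∧
      κ / (2 * E * C) ≤ ‖tst ρ L a ξ (fun j => f j - g j) d‖ := by
  obtain ⟨ι, S, e, a, φ, ψ, a1, a2, a3⟩ := h
  set T : ι → ℂ := fun k => tst ρ L (a k) ξ (fun j => φ k j - ψ k j) d with hT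
  have e1 : ∑ k ∈ S, e k * T k = c0 + ∑ s ∈ range (L + 1), (ρ s : ℂ) * (P s - Q s - c0) := by
    have e0 : ∑ s ∈ range (L + 1), (ρ s : ℂ) * c0 = c0 := by
      rw [← sum_mul, ← ofReal_sum, h1, ofReal_one, one_mul]
    simp only [mul_sub _ _ c0, sum_sub_distrib, e0, add_sub_cancel, hT, tst, mul_sum]
    rw [sum_comm]
    refine sum_congr rfl fun s hs => ?_
    have hs' := (Nat.lt_succ_iff.1 (mem_range.1 hs)).trans hL
    rw [(a3 s hs').1, (a3 s hs').2, ← sum_sub_distrib, mul_sum]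
    exact sum_congr rfl fun k _ => by ring
  have e2 : ‖∑ s ∈ range (L + 1), (ρ s : ℂ) * (P s - Q s - c0)‖ ≤ κ / 2 := by
    refine (norm_sum_le_of_le _ (n := fun s => ρ s * (κ / 2)) fun s hs => ?_).trans
      (by rw [← sum_mul, h1, one_mul])
    rw [norm_mul, norm_real, Real.norm_of_nonneg (hρ s)]
    exact mul_le_mul_of_nonneg_left (hn s (Nat.lt_succ_iff.1 (mem_range.1 hs))) (hρ s)
  have e3 : κ / 2 ≤ ‖∑ k ∈ S, e k * T k‖ := by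
    have := norm_sub_le (∑ k ∈ S, e k * T k) (∑ s ∈ range (L + 1), (ρ s : ℂ) * (P s - Q s - c0))
    rw [sub_eq_of_eq_add e1] at this
    linarith
  obtain rfl | hS := S.eq_empty_or_nonempty
  · simp only [sum_empty, norm_zero] at e3
    linarith
  obtain ⟨k, hk, hm⟩ := exists_max_image S (fun k => ‖T k‖) hS
  have e4 : κ / 2 ≤ E * ‖T k‖ := by
    refine e3.trans ((norm_sum_le_of_le _ (n := fun i => ‖e i‖ * ‖T k‖) fun i hi => ?_).trans ?_)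
    · rw [norm_mul]
      exact mul_le_mul_of_nonneg_left (hm i hi) (norm_nonneg _)
    · rw [← sum_mul]
      exact mul_le_mul_of_nonneg_right a1 (norm_nonneg _)
  have n1 : ‖((C⁻¹ : ℝ) : ℂ)‖ = C⁻¹ := by rw [norm_real, Real.norm_of_nonneg (inv_pos.2 hC).le]
  have p := (a2 k hk).2.1.smul ((C⁻¹ : ℝ) : ℂ)
  rw [n1, inv_mul_cancel₀ hC.ne'] at p
  refine ⟨_, _, a k, (a2 k hk).1, p, fun j => ?_, ?_⟩
  · simp only [← mul_sub]
    rw [norm_mul, n1, div_eq_inv_mul, mul_assoc]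
    exact mul_le_mul_of_nonneg_left ((a2 k hk).2.2 j) (inv_pos.2 hC).le
  · have e5 : tst ρ L (a k) ξ (fun j => ((C⁻¹ : ℝ) : ℂ) * φ k j - ((C⁻¹ : ℝ) : ℂ) * ψ k j) d =
        ((C⁻¹ : ℝ) : ℂ) * T k := by
      simp only [hT, tst, mul_sum]
      exact sum_congr rfl fun s _ => by ring
    rw [e5, norm_mul, n1, div_le_iff₀ (by positivity)]
    have e6 : C⁻¹ * ‖T k‖ * (2 * E * C) = 2 * (E * ‖T k‖) := by field_simp
    linarith

end Vale.Agent.P321U
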